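import Vale.Agent.P216.LS.Lift

/-!
# P216-B, R2a: the descent inside one component of the loop space
-/

open Set Filter Topology

namespace Vale.Agent.P216.V893.Dsc

open L250 H494 H288 LS

variable {M : Type*} [MetricSpace M] [CompactSpace M] {ρ : ℝ}

/-- Close loops are joined. -/
theorem joined_of_dist (h : UniqSeg M ρ) {g g' : LM M} (hd : dist g g' < ρ) : Joined g g' := by
  have hdx : ∀ x, dist (g x) (g' x) < ρ := fun x =>
    (ContinuousMap.dist_apply_le_dist x).trans_lt hd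
  let F : C(unitInterval × AddCircle (1 : ℝ), M) :=
    ⟨fun p => seg (g p.2) (g' p.2) p.1, by
      have h1 : ContinuousOn (fun p : unitInterval × AddCircle (1 : ℝ) =>
          seg (g p.2) (g' p.2) (p.1 : ℝ)) univ :=
        ContinuousOn.seg h (by fun_prop) (by fun_prop) (by fun_prop) (fun p _ => hdx p.2)
          fun p _ => p.1.2
      exact continuousOn_univ.1 h1⟩
  refine ⟨⟨F.curry, ?_, ?_⟩⟩
  · ext x
    show seg (g x) (g' x) ((0 : unitInterval) : ℝ) = g x
    simp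
  · ext x
    show seg (g x) (g' x) ((1 : unitInterval) : ℝ) = g' x
    simp

theorem isOpen_not_joined (hρ : 0 < ρ) (h : UniqSeg M ρ) (c : LM M) :
    IsOpen {g : LM M | ¬ Joined g c} := by
  rw [Metric.isOpen_iff]
  intro g hg
  refine ⟨ρ, hρ, fun g' hg' hj => hg ?_⟩
  exact (joined_of_dist h (by rwa [Metric.mem_ball] at hg')).symm.trans hj

theorem isOpen_joined (hρ : 0 < ρ) (h : UniqSeg M ρ) (c : LM M) :
    IsOpen {g : LM M | Joined g c} := by
  rw [Metric.isOpen_iff]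
  intro g hg
  refine ⟨ρ, hρ, fun g' hg' => ?_⟩
  exact (joined_of_dist h (by rwa [Metric.mem_ball] at hg')).trans hg

/-- Loops of the component of `c` with energy at most `s ^ 2`. -/
def Ec (s : ℝ) (c : LM M) : Set (LM M) := {g | g ∈ XE M s ∧ Joined g c}

theorem isCompact_Ec (hρ : 0 < ρ) (h : UniqSeg M ρ) {s : ℝ} (hs : 0 ≤ s) (c : LM M) :
    IsCompact (Ec s c) := by
  have h1 : IsClosed {g : LM M | Joined g c} := ⟨isOpen_not_joined hρ h c⟩
  exact (isCompact_XE hs).inter_right h1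

/-- Passing a level without closed geodesics in the component. -/
theorem pass {K : ℕ} [NeZero K] (hρ : 0 < ρ) (h : UniqSeg M ρ) (G : GeoList M) {b T : ℝ}
    (hb : 0 < b) (hbT : b < T) (hT : T ^ 2 < K * ρ ^ 2) {c : LM M}
    (hno : ∀ g, g ∈ G.KK 1 b ∨ g ∈ G.KK (-1) b → ¬ Joined g c) :
    ∃ ε > 0, ε ≤ b ∧ b + ε ≤ T ∧
      ∀ g ∈ XE M (b + ε), Joined g c → De (Segs.ofUniqSeg hρ h) K 1 g ∈ XE M (b - ε) := by
  have hKpos := cast_pos_K (K := K)
  have hbK : b ^ 2 < K * ρ ^ 2 := (pow_le_pow_left₀ hb.le hbT.le 2).trans_lt hT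
  obtain ⟨ε, hε, hε1, hε2, hε3⟩ := De_pass hρ h hb hbT hT (isOpen_not_joined hρ h c) (by
    intro g hg hE hc
    have hmem := sampleL_mem (K := K) hg
    have hEq : E (sampleL K g) = b ^ 2 := le_antisymm hmem hE
    have hst : ∀ i, dist (sampleL K g i) (sampleL K g (i + 1)) < ρ :=
      steps hρ h hbK hmem
    have he : b ^ 2 / K < (Segs.ofUniqSeg hρ h).ρ ^ 2 := by
      rw [Segs.ofUniqSeg_ρ, div_lt_iff₀ hKpos]; linarith
    have h3 : sampleL K g ∈ sub M K (b ^ 2 / K) := by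
      show en _ ≤ _
      rw [le_div_iff₀ hKpos, mul_comm]
      exact hmem
    obtain ⟨d, hd⟩ := (crit_iff' he h3).1 hc
    have h4 := itpL_sampleL_of_le h hρ hbK hg hE
    have h5 : fn g = itp (sampleL K g) := by
      conv_lhs => rw [← h4]
      exact funext (fn_itpL h hρ (lt_of_le_of_lt hmem hbK))
    exact hno g (mem_KK_of_crit G hρ h hb hst hd hEq h5))
  exact ⟨ε, hε, hε1, hε2, fun g hg hj => hε3 g hg fun hcon => hcon hj⟩

theorem joined_De {K : ℕ} [NeZero K] (hρ : 0 < ρ) (h : UniqSeg M ρ) {T : ℝ} (hT0 : 0 ≤ T)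
    (hT : T ^ 2 < K * ρ ^ 2) {g : LM M} (hg : g ∈ XE M T) {u : ℝ} (hu : u ∈ Icc (0 : ℝ) 1) :
    Joined g (De (Segs.ofUniqSeg hρ h) K u g) := by
  have hc : ContinuousOn (fun s : ℝ => De (Segs.ofUniqSeg hρ h) K s g) (Icc 0 1) :=
    (continuousOn_De hρ h hT0 hT).comp (f := fun s : ℝ => (s, g)) (by fun_prop)
      fun s hs => ⟨hs, hg⟩
  refine ⟨⟨⟨fun s : unitInterval => De (Segs.ofUniqSeg hρ h) K (s * u) g, ?_⟩, ?_, ?_⟩⟩
  · refine hc.comp_continuous (by fun_prop) fun s => ?_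
    exact ⟨mul_nonneg s.2.1 hu.1, mul_le_one₀ s.2.2 hu.1 hu.2⟩
  · simp [De_zero hρ h g]
  · simp

/-- **R2a.** -/
theorem exists_desc (hρ : 0 < ρ) (h : UniqSeg M ρ) (G : GeoList M) (c : LM M) {a' T : ℝ}
    (ha : 0 < a') (haT : a' ≤ T)
    (hno : ∀ b ∈ Icc a' T, ∀ g, g ∈ G.KK 1 b ∨ g ∈ G.KK (-1) b → ¬ Joined g c) :
    ∃ D : ℝ → LM M → LM M,
      ContinuousOn (fun q : ℝ × LM M => D q.1 q.2) (Icc (0 : ℝ) 1 ×ˢ XE M T) ∧
      (∀ g, D 0 g = g) ∧
      (∀ s, 0 ≤ s → s ≤ T → ∀ u ∈ Icc (0 : ℝ) 1, ∀ g ∈ XE M s, D u g ∈ XE M s) ∧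
      (∀ u ∈ Icc (0 : ℝ) 1, ∀ g ∈ XE M T, Joined g (D u g)) ∧
      (∀ g ∈ XE M T, Joined g c → D 1 g ∈ XE M a') := by
  have hT : 0 < T := ha.trans_le haT
  obtain ⟨N, hN⟩ := exists_nat_gt ((T + 1) ^ 2 / ρ ^ 2)
  have hK0 : N + 1 ≠ 0 := by omega
  have : NeZero (N + 1) := ⟨hK0⟩
  set K := N + 1 with hK
  have hTK : (T + 1) ^ 2 < K * ρ ^ 2 := by
    rw [div_lt_iff₀ (by positivity)] at hN
    refine hN.trans ?_
    have : (N : ℝ) < (K : ℝ) := by rw [hK]; push_cast; linarith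
    exact mul_lt_mul_of_pos_right this (by positivity)
  have hTK' : T ^ 2 < K * ρ ^ 2 :=
    (pow_le_pow_left₀ hT.le (by linarith) 2).trans_lt hTK
  set d := De (Segs.ofUniqSeg hρ h) K with hd
  -- the uniform step
  have hstep : ∃ δ > 0, δ ≤ a' / 2 ∧ ∀ b ∈ Icc a' T, ∀ g ∈ XE M b, Joined g c →
      d 1 g ∈ XE M (b - δ) := by
    have h1 : ∀ b : ℝ, b ∈ Icc a' T → ∃ ε > 0, ε ≤ b ∧ b + ε ≤ T + 1 ∧
        ∀ g ∈ XE M (b + ε), Joined g c → d 1 g ∈ XE M (b - ε) := fun b hb =>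
      pass hρ h G (ha.trans_le hb.1) (by linarith [hb.2]) hTK (hno b hb)
    choose! ε hε hε1 hε2 hε3 using h1
    obtain ⟨δ, hδ, hδ'⟩ := lebesgue_number_lemma_of_metric (s := Icc a' T)
      (c := fun b : Icc a' T => Metric.ball (b : ℝ) (ε b)) isCompact_Icc
      (fun _ => Metric.isOpen_ball) (fun b hb => mem_iUnion.2 ⟨⟨b, hb⟩,
        Metric.mem_ball_self (hε b hb)⟩)
    refine ⟨min (δ / 2) (a' / 2), lt_min (by positivity) (by positivity), min_le_right _ _,
      fun b hb g hg hj => ?_⟩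
    obtain ⟨⟨b₀, hb₀⟩, hsub⟩ := hδ' b hb
    simp only at hsub
    set δ' := min (δ / 2) (a' / 2) with hδ''
    have hδ0 : 0 < δ' := lt_min (by positivity) (by positivity)
    have hδ1 : δ' < δ := (min_le_left _ _).trans_lt (by linarith)
    have hmem1 : b - δ' ∈ Metric.ball b₀ (ε b₀) := hsub (by
      rw [Metric.mem_ball, Real.dist_eq]; rw [show b - δ' - b = -δ' by ring, abs_neg,
        abs_of_pos hδ0]; exact hδ1)
    have hmem2 : b ∈ Metric.ball b₀ (ε b₀) := hsub (Metric.mem_ball_self hδ)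
    rw [Metric.mem_ball, Real.dist_eq, abs_lt] at hmem1 hmem2
    have hgb : g ∈ XE M (b₀ + ε b₀) := XE_mono (by linarith [hb.1]) (by linarith [hmem2.2]) hg
    have := hε3 b₀ hb₀ g hgb hj
    exact XE_mono (by linarith [hε1 b₀ hb₀]) (by linarith [hmem1.1]) this
  obtain ⟨δ, hδ, hδa, hstep⟩ := hstep
  -- the induction
  have key : ∀ n : ℕ, ∃ D : ℝ → LM M → LM M,
      ContinuousOn (fun q : ℝ × LM M => D q.1 q.2) (Icc (0 : ℝ) 1 ×ˢ XE M T) ∧
      (∀ g, D 0 g = g) ∧
      (∀ s, 0 ≤ s → s ≤ T → ∀ u ∈ Icc (0 : ℝ) 1, ∀ g ∈ XE M s, D u g ∈ XE M s) ∧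
      (∀ u ∈ Icc (0 : ℝ) 1, ∀ g ∈ XE M T, Joined g (D u g)) ∧
      (∀ g ∈ XE M T, Joined g c → D 1 g ∈ XE M (max a' (T - n * δ))) := by
    intro n
    induction n with
    | zero =>
      refine ⟨fun _ g => g, continuousOn_snd, fun _ => rfl, fun _ _ _ _ _ g hg => hg,
        fun _ _ g _ => Joined.refl g, fun g hg _ => ?_⟩
      refine XE_mono hT.le ?_ hg
      rw [Nat.cast_zero, zero_mul, sub_zero]
      exact le_max_right _ _
    | succ n ih =>
      obtain ⟨D, hc, h0, hm, hj, h1⟩ := ih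
      have hdc : ContinuousOn (fun q : ℝ × LM M => d q.1 q.2) (Icc (0 : ℝ) 1 ×ˢ XE M T) :=
        continuousOn_De hρ h hT.le hTK'
      refine ⟨fun u g => if u ≤ 1 / 2 then D (2 * u) g else d (2 * u - 1) (D 1 g), ?_, ?_, ?_,
        ?_, ?_⟩
      · have hunion : Icc (0 : ℝ) 1 ×ˢ XE M T =
            (Icc (0 : ℝ) (1 / 2) ×ˢ XE M T) ∪ (Icc (1 / 2 : ℝ) 1 ×ˢ XE M T) := by
          rw [← union_prod, Icc_union_Icc_eq_Icc (by norm_num) (by norm_num)]
        rw [hunion]
        apply ContinuousOn.union_of_isClosed _ _ (isClosed_Icc.prod isClosed_XE)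
          (isClosed_Icc.prod isClosed_XE)
        · have h2 : ContinuousOn (fun p : ℝ × LM M => D (2 * p.1) p.2)
              (Icc (0 : ℝ) (1 / 2) ×ˢ XE M T) :=
            hc.comp (f := fun p : ℝ × LM M => (2 * p.1, p.2)) (by fun_prop) fun p hp =>
              ⟨⟨by linarith [hp.1.1], by linarith [hp.1.2]⟩, hp.2⟩
          exact h2.congr fun p hp => if_pos hp.1.2
        · have h2 : ContinuousOn (fun p : ℝ × LM M => D 1 p.2) (Icc (1 / 2 : ℝ) 1 ×ˢ XE M T) :=
            hc.comp (f := fun p : ℝ × LM M => ((1 : ℝ), p.2)) (by fun_prop) fun p hp =>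
              ⟨⟨by norm_num, le_rfl⟩, hp.2⟩
          have h3 : ContinuousOn (fun p : ℝ × LM M => d (2 * p.1 - 1) (D 1 p.2))
              (Icc (1 / 2 : ℝ) 1 ×ˢ XE M T) :=
            hdc.comp (f := fun p : ℝ × LM M => (2 * p.1 - 1, D 1 p.2))
              (ContinuousOn.prodMk (by fun_prop) h2) fun p hp =>
              ⟨⟨by linarith [hp.1.1], by linarith [hp.1.2]⟩,
                hm T hT.le le_rfl 1 ⟨by norm_num, le_rfl⟩ _ hp.2⟩
          refine h3.congr fun p hp => ?_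
          rcases hp.1.1.eq_or_lt with h4 | h4
          · simp only
            rw [if_pos (by rw [← h4]), ← h4]
            norm_num
            rw [hd, De_zero]
          · exact if_neg (not_le.2 h4)
      · intro g
        simp only
        rw [if_pos (by norm_num), mul_zero, h0]
      · intro s hs0 hsT u hu g hg
        simp only
        split_ifs with h2
        · exact hm s hs0 hsT _ ⟨by linarith [hu.1], by linarith⟩ g hg
        · refine De_mem hρ h ?_ (hm s hs0 hsT 1 ⟨by norm_num, le_rfl⟩ g hg)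
            ⟨by linarith, by linarith [hu.2]⟩
          exact (pow_le_pow_left₀ hs0 hsT 2).trans_lt hTK'
      · intro u hu g hg
        simp only
        split_ifs with h2
        · exact hj _ ⟨by linarith [hu.1], by linarith⟩ g hg
        · exact (hj 1 ⟨by norm_num, le_rfl⟩ g hg).trans
            (joined_De hρ h hT.le hTK' (hm T hT.le le_rfl 1 ⟨by norm_num, le_rfl⟩ g hg)
              ⟨by linarith, by linarith [hu.2]⟩)
      · intro g hg hgc
        simp only
        rw [if_neg (by norm_num)]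
        have h2 := h1 g hg hgc
        have hj1 : Joined (D 1 g) c := (hj 1 ⟨by norm_num, le_rfl⟩ g hg).symm.trans hgc
        rw [show (2 : ℝ) * 1 - 1 = 1 by norm_num]
        have hb : max a' (T - n * δ) ∈ Icc a' T :=
          ⟨le_max_left _ _, max_le haT (by
            have : (0 : ℝ) ≤ n * δ := by positivity
            linarith)⟩
        have h3 := hstep _ hb _ h2 hj1
        -- either the level was `a'` already or it drops
        rcases le_total (T - (n + 1 : ℕ) * δ) a' with h4 | h4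
        · rw [max_eq_left h4]
          rcases le_total (T - n * δ) a' with h5 | h5
          · rw [max_eq_left h5] at h2
            refine De_mem hρ h ?_ h2 ⟨by norm_num, le_rfl⟩
            exact (pow_le_pow_left₀ ha.le haT 2).trans_lt hTK'
          · rw [max_eq_right h5] at h3 hb
            refine XE_mono (by linarith) ?_ h3
            push_cast at h4
            linarith
        · rw [max_eq_right h4]
          have h5 : a' ≤ T - n * δ := by
            push_cast at h4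
            linarith
          rw [max_eq_right h5] at h3
          have : T - ((n + 1 : ℕ) : ℝ) * δ = T - n * δ - δ := by push_cast; ring
          rw [this]
          exact h3
  obtain ⟨n, hn⟩ := exists_nat_gt ((T - a') / δ)
  obtain ⟨D, hc, h0, hm, hj, h1⟩ := key n
  refine ⟨D, hc, h0, hm, hj, fun g hg hgc => ?_⟩
  have h2 := h1 g hg hgc
  rwa [max_eq_left] at h2
  rw [div_lt_iff₀ hδ] at hn
  linarith

end Vale.Agent.P216.V893.Dsc
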