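import Vale.Agent.P216.V893.DscC

/-!
# P216-B, R1: the smallest level of a free homotopy class
-/

open Set Filter Topology

namespace Vale.Agent.P216.V893.Dsc

open L250 H494 H288 LS

variable {M : Type*} [MetricSpace M] [CompactSpace M] {ρ : ℝ}

/-- The smallest level of a free homotopy class is attained. -/
theorem exists_mu (hρ : 0 < ρ) (h : UniqSeg M ρ) (c : LM M)
    (hfin : ∃ T, 0 ≤ T ∧ ∃ x ∈ XE M T, Joined x c) :
    ∃ a, 0 ≤ a ∧ (∃ x ∈ XE M a, Joined x c) ∧
      ∀ x, Joined x c → ∀ T, 0 ≤ T → x ∈ XE M T → a ≤ T := by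
  set S : Set ℝ := {T | 0 ≤ T ∧ ∃ x ∈ XE M T, Joined x c} with hS
  have hne : S.Nonempty := hfin
  have hbd : BddBelow S := ⟨0, fun T hT => hT.1⟩
  set a := sInf S with ha
  have ha0 : 0 ≤ a := le_csInf hne fun T hT => hT.1
  -- a minimising sequence
  have hseq : ∀ n : ℕ, ∃ T ∈ S, T < a + 1 / (n + 1) := fun n =>
    exists_lt_of_csInf_lt hne (by
      have : (0 : ℝ) < 1 / (n + 1) := by positivity
      linarith)
  choose T hT hTa using hseq
  choose x hxT hxj using fun n => (hT n).2
  have hx1 : ∀ n, x n ∈ XE M (a + 1) := fun n => by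
    refine XE_mono (hT n).1 ((hTa n).le.trans ?_) (hxT n)
    have : (1 : ℝ) / (n + 1) ≤ 1 := by
      rw [div_le_one (by positivity)]
      have : (0 : ℝ) ≤ n := by positivity
      linarith
    linarith
  obtain ⟨x₀, hx₀, φ, hφ, hlim⟩ := (isCompact_XE (by linarith : (0 : ℝ) ≤ a + 1)).tendsto_subseq hx1
  refine ⟨a, ha0, ⟨x₀, ?_, ?_⟩, fun y hy T' hT' hyT => csInf_le hbd ⟨hT', y, hyT, hy⟩⟩
  · refine mem_XE_of_forall ha0 fun ε hε => ?_
    have hev : ∀ᶠ n in atTop, (x ∘ φ) n ∈ XE M (a + ε) := by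
      have h1 : Tendsto (fun n : ℕ => (1 : ℝ) / (n + 1)) atTop (𝓝 0) :=
        tendsto_one_div_add_atTop_nhds_zero_nat
      have h2 := h1.comp hφ.tendsto_atTop
      filter_upwards [h2.eventually (gt_mem_nhds hε)] with n hn
      refine XE_mono (hT (φ n)).1 ?_ (hxT (φ n))
      have := (hTa (φ n)).le
      simp only [Function.comp_apply] at hn
      linarith
    exact isClosed_XE.mem_of_tendsto hlim hev
  · have hcl : IsClosed {g : LM M | Joined g c} := ⟨isOpen_not_joined hρ h c⟩
    exact hcl.mem_of_tendsto hlim (Eventually.of_forall fun n => hxj (φ n))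

omit [CompactSpace M] in
/-- Loops of level zero are constant. -/
theorem XE_zero {g : LM M} (hg : g ∈ XE M 0) (s t : ℝ) : fn g s = fn g t := by
  have h1 := dist_fn_le_of_mem hg le_rfl s t
  rw [zero_mul] at h1
  exact dist_le_zero.1 h1

omit [CompactSpace M] in
theorem eq_const_of_XE_zero {g : LM M} (hg : g ∈ XE M 0) :
    g = ContinuousMap.const _ (fn g 0) := by
  refine ext_fn fun t => ?_
  rw [XE_zero hg t 0]
  rfl

omit [CompactSpace M] in
theorem joined_const [PathConnectedSpace M] (x y : M) :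
    Joined (ContinuousMap.const (AddCircle (1 : ℝ)) x) (ContinuousMap.const _ y) := by
  obtain ⟨p⟩ := PathConnectedSpace.joined x y
  refine ⟨⟨⟨fun s => ContinuousMap.const _ (p s), ?_⟩, ?_, ?_⟩⟩
  · exact ContinuousMap.continuous_const'.comp p.continuous
  · simp
  · simp

omit [CompactSpace M] in
/-- Any two loops of level zero are joined. -/
theorem joined_of_XE_zero [PathConnectedSpace M] {g g' : LM M} (hg : g ∈ XE M 0)
    (hg' : g' ∈ XE M 0) : Joined g g' := by
  rw [eq_const_of_XE_zero hg, eq_const_of_XE_zero hg']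
  exact joined_const _ _

end Vale.Agent.P216.V893.Dsc
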