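import Vale.Agent.P216.V893.DscC
import Vale.Agent.P216.H971B.Props

/-!
# P216-B, R2b: the shortest loops of a free homotopy class are closed geodesics
-/

open Set Filter Topology

namespace Vale.Agent.P216.V893.Dsc

open L250 H494 H288 LS

theorem mem_KK_of_E {M : Type*} [MetricSpace M] [CompactSpace M] {ρ : ℝ} {K : ℕ} [NeZero K]
    (hρ : 0 < ρ) (h : UniqSeg M ρ) (G : GeoList M) {b : ℝ} (hb : 0 < b)
    (hbK : b ^ 2 < K * ρ ^ 2) {g : LM M} (hg : g ∈ XE M b) (hE : b ^ 2 ≤ E (sampleL K g))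
    (hc : Crit (Segs.ofUniqSeg hρ h) (sampleL K g)) : g ∈ G.KK 1 b ∪ G.KK (-1) b := by
  have hKpos := cast_pos_K (K := K)
  have hmem := sampleL_mem (K := K) hg
  have hEq : E (sampleL K g) = b ^ 2 := le_antisymm hmem hE
  have hst : ∀ i, dist (sampleL K g i) (sampleL K g (i + 1)) < ρ :=
    steps hρ h hbK hmem
  have he : b ^ 2 / K < (Segs.ofUniqSeg hρ h).ρ ^ 2 := by
    rw [Segs.ofUniqSeg_ρ, div_lt_iff₀ hKpos]; linarith
  have h3 : sampleL K g ∈ sub M K (b ^ 2 / K) := by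
    show en _ ≤ _
    rw [le_div_iff₀ hKpos, mul_comm]
    exact hmem
  obtain ⟨d, hd⟩ := (crit_iff' he h3).1 hc
  have h4 := itpL_sampleL_of_le h hρ hbK hg hE
  have h5 : fn g = itp (sampleL K g) := by
    conv_lhs => rw [← h4]
    exact funext (fn_itpL h hρ (lt_of_le_of_lt hmem hbK))
  exact mem_KK_of_crit G hρ h hb hst hd hEq h5

theorem r2bGoal : H971B.R2bGoal := by
  intro M _ _ ρ hρ h G c a ha hmin x hx
  obtain ⟨N, hN⟩ := exists_nat_gt (a ^ 2 / ρ ^ 2)
  have hK0 : N + 1 ≠ 0 := by omega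
  have : NeZero (N + 1) := ⟨hK0⟩
  set K := N + 1 with hK
  have hTK : a ^ 2 < K * ρ ^ 2 := by
    rw [div_lt_iff₀ (by positivity)] at hN
    refine hN.trans ?_
    have : (N : ℝ) < (K : ℝ) := by rw [hK]; push_cast; linarith
    exact mul_lt_mul_of_pos_right this (by positivity)
  have hmem := sampleL_mem (K := K) hx.1
  have hone : (1 : ℝ) ∈ Icc (0 : ℝ) 1 := ⟨zero_le_one, le_rfl⟩
  set y := (Segs.ofUniqSeg hρ h).H 1 (sampleL K x) with hy
  have hE3 : E y ≤ E (sampleL K x) := by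
    have := en_H_le (steps hρ h hTK hmem) hone
    rw [E_eq, E_eq]
    exact mul_le_mul_of_nonneg_left this cast_pos_K.le
  have hyE : E y < K * ρ ^ 2 := (hE3.trans hmem).trans_lt hTK
  have hE0 : 0 ≤ E y := by
    rw [E_eq]
    exact mul_nonneg cast_pos_K.le (en_nonneg _)
  have h1 : De (Segs.ofUniqSeg hρ h) K 1 x ∈ XE M (√(E y)) := by
    rw [De_one hρ h hTK hx.1]
    refine itpL_mem h hρ ?_ ?_
    · rw [Real.sq_sqrt hE0]; exact hyE
    · show E y ≤ _
      rw [Real.sq_sqrt hE0]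
  have hj : Joined (De (Segs.ofUniqSeg hρ h) K 1 x) c :=
    (joined_De hρ h ha.le hTK hx.1 hone).symm.trans hx.2
  have h2 := hmin _ hj _ (Real.sqrt_nonneg _) h1
  have h3 : a ^ 2 ≤ E y := by
    have := pow_le_pow_left₀ ha.le h2 2
    rwa [Real.sq_sqrt hE0] at this
  refine mem_KK_of_E hρ h G ha hTK hx.1 (h3.trans hE3) ?_
  rw [crit_iff_of_mem hρ h hTK hmem]
  exact le_trans hmem h3

end Vale.Agent.P216.V893.Dsc
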