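import Vale.Agent.P216.V893.ThmBG
import Vale.Agent.P216.H126B.Homot2
import Vale.Agent.P216.H923B2.R1
import Vale.Agent.P216.H923B2.R7
import Vale.Agent.P216.H539B.R2
import Vale.Agent.P216.H921B.R3
import Vale.Agent.P216.H313B.R4
import Vale.Agent.P216.H971B.Fam2
import Vale.Agent.P216.H971B.EtaL
import Vale.Agent.P216.H456B.R6Main

/-!
# P216-B: the rows, and Theorem B
-/

namespace Vale.Agent.P216.V893

open Vale.Agent.P216

/-- **R1**. -/
theorem r1Goal : H971B.R1Goal :=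
  H923B2.r1Goal_of
    (fun _M _ _ _ρ hρ h x g m hm K Lg hK hx hg hj r =>
      H126B.conj_bound hρ h x g m hm K Lg hK hx hg hj r)
    (fun _M _ _ _ρ hρ h c => H126B.exists_fin hρ h c)

/-- **All rows**. -/
theorem rowsB : RowsB where
  r1 := r1Goal
  r2 := H539B.r2Goal
  r2b := Dsc.r2bGoal
  r3 := H921B.r3Goal
  r4 := H313B.r4Goal
  r5 := H971B.r5Goal
  r6 := H456B.r6Goal
  r7 := H923B2.r7Goal
  r8 := H971B.r8Goal

/-- **Theorem B**. -/
theorem thmBGoal : H215.ThmBGoal := by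
  intro E _ _ _ N _ _ _ _ _ _ _ _ x₀ hπ k _ q U hq hU hc s hne
  exact thmBGoal_of rowsB (E := E) x₀ hπ k q U hq hU hc s hne

end Vale.Agent.P216.V893
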