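import Vale.Agent.P216.V893.Qis
import Vale.Agent.P216.V775.NTower

/-!
# P216-V, C1: quasi-isomorphisms of towers
-/

universe u v w u' v'

namespace Vale.Agent.P216.V893

open Vale.Agent.P216.V609 Vale.Agent.P216.V775

variable {k : Type w} [Field k]

/-- one extension -/
theorem Qiso.nmp_ex {X : CD.{v} k} {Y : CD.{v'} k} {φ : X.Hm Y} {A : ND.{u} X} {B : ND.{u'} Y}
    {g : NMp φ A B} (h : Qiso g.g) {l : ℕ} (hl : Odd l) {x : X.A} (hx : x ∈ X.C.deg (l + 1))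
    (hdx : X.C.d x = 0) : Qiso (g.ex hl hx hdx).g :=
  h.exMapC A.ev B.ev hl hx hdx (φ.deg hx) (φ.d_eq hdx) (g.ev x)

/-- **Quasi-isomorphisms pass to towers.** -/
theorem Qiso.nmap {X : CD.{v} k} {Y : CD.{v'} k} {φ : X.Hm Y} {A : ND.{u} X} {B : ND.{u'} Y}
    {g : NMp φ A B} (h : Qiso g.g) (T : Tw X) : Qiso (T.nmap g).g :=
  T.nmap_rec (fun g => Qiso g.g)
    (fun _ _ _ _ _ _ _ hl _ hx hdx h => h.nmp_ex hl hx hdx) g h

/-- **Closed in the base and exact in the target of a quasi-isomorphism implies exact.** -/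
theorem Qiso.exists_prim {X : CD.{v} k} {Y : CD.{v'} k} {φ : X.Hm Y} {A : ND.{u} X}
    {B : ND.{u'} Y} {g : NMp φ A B} (h : Qiso g.g) {n : ℕ} {z : X.A} (hz : z ∈ X.C.deg (n + 1))
    (hdz : X.C.d z = 0) (hB : φ.f z ∈ Y.C.B (n + 1)) :
    ∃ a ∈ A.D.deg n, A.D.d a = A.ev.f z := by
  refine h.exists_d (n := n) ⟨A.ev.deg' hz, A.ev.d_closed hdz⟩ ?_
  obtain ⟨b, hb, hdb⟩ := hB
  exact ⟨B.ev.f b, B.ev.deg' hb, by rw [← B.ev.d', hdb, g.ev]⟩

end Vale.Agent.P216.V893
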