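import Vale.Agent.P216.V893.GerL
import Vale.Agent.P216.V994.PInst
import Vale.Agent.P216.V921.ColInst
import Vale.Agent.P216.V670.GerTw

/-!
# P216-V, (F): the germs of the plain system of the paths which end at `b`

`gerP b : Ger (V994.plain b) ..` with the systems of `vs M b`; `gB`, `agP`: the same over the germs of
the forms on the base.
-/

set_option linter.unusedSectionVars false
set_option linter.unusedVariables false

open Set Filter Topology BoundedContinuousFunction

namespace Vale.Agent.P216.V893

open V1 V609 H285V H929V V775 V670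
open Vale.Agent.P231.Fm
open Vale.Agent.P216.V994 (plain PI.e₀ PI.P_mono PI.sg_sg)

noncomputable section

variable {M : Type} [MetricSpace M] (b : M)

/-- **The germs of the plain system.** -/
def gerP : Ger (plain b) (fun t => ((vs M b).PF.Y t).D) (fun t => ((vs M b).Om.Y t).D)
    (fun s t h => ((vs M b).Om.ρ s t h).g) (fun t => ((vs M b).oPF t).g) where
  γ t i := gmH (id : M → M) PI.e₀ (H456.PF b t) univ i
  γO t i := gmH (id : M → M) PI.e₀ (PS.P b b t) {b} i
  col t := col_gmH _ (fun _ _ _ _ => rfl)
  colO t := col_gmH _ (fun _ _ _ _ => rfl)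
  gr_γ t i w := (germD_rsH H456.P_subset_PF (subset_univ _) i.pos i.pos le_rfl w).symm
  σ_γ s t h i j hij w :=
    (germD_rsH (PI.P_mono h) Subset.rfl j.pos i.pos (Sc.le_iff.1 hij) w).symm
  σσ t i j l h h' w := PI.sg_sg b le_rfl le_rfl h h' w

/-- the germs of the base -/
def gB (i : Sc) : ((plain b).cd i).Hm (vs M b).X := gmB univ i

/-- the germs over the germs of the base -/
def agP (t : ℝ) (i : Sc) : NMp (gB b i) ((plain b).nd t i) ((vs M b).PF.Y t) :=
  gmN (id : M → M) PI.e₀ (H456.PF b t) univ i

theorem agP_g (t : ℝ) (i : Sc) : (agP b t i).g = (gerP b).γ t i := rfl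

/-- the germs of the base are the colimit of the scales -/
theorem colP : V754.CCol (plain b).C (plain b).β (vs M b).X.C (gB b) := V921.colGA univ

/-- positive degrees of the base vanish on the fibre, for the germs -/
theorem zpP (t : ℝ) : V754.Zp ((vs M b).PF.Y t) ((vs M b).oPF t).g := fun p a ha => by
  rw [((vs M b).oPF t).ev, (vs M b).ε_van p a ha, map_zero]

end

end Vale.Agent.P216.V893
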