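import Vale.Agent.P216.MV337.Conj
import Vale.Agent.P216.H456.PTriv
import Vale.Agent.P216.H787.Cls

/-!
# P216-V, HX2: free Moore paths of bounded duration and the constant paths

`PP M t` (H311/PathSp): the 1-Lipschitz Moore paths of duration `t` with free ends.  Restriction to
the constant paths is a bijection on the cohomology of list cochains, at every level `t`.
-/

set_option linter.unusedSectionVars false

open Set Filter Topology BoundedContinuousFunction

namespace Vale.Agent.P216.V893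

open Vale.Agent.P216.PS Vale.Agent.P216.MV337
open Vale.Agent.P216.AS (IsMap IsHtpy)
open Vale.Agent.P216.Sl (CocL ExL cls)

section map

variable {k : Type} [Field k] {E E' : Type} [PseudoMetricSpace E] [PseudoMetricSpace E']

/-- no symmetries -/
abbrev noA (E : Type) : Empty → E → E := fun i => i.elim

theorem isMap_of {X : Set E} {X' : Set E'} {F : E → E'} (h : MapsTo F X X')
    (hu : ∀ ε > 0, ∃ δ > 0, ∀ x ∈ X, ∀ y ∈ X, dist x y < δ → dist (F x) (F y) < ε) :
    IsMap (noA E) (noA E') X X' F where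
  mapsX := h
  eqv i := i.elim
  uc := hu

theorem dl_sub' {α : Type} (f g : List α → k) (l : List α) :
    Sl.dl (fun l => f l - g l) l = Sl.dl f l - Sl.dl g l := by
  have h := Sl.dl_add (fun l => f l - g l) g l
  simp only [sub_add_cancel] at h
  exact eq_sub_of_add_eq h.symm

/-- Pull back of exact cochains. -/
theorem exL_map {X : Set E} {X' : Set E'} {n : ℕ} {F : E → E'} (hF : IsMap (noA E) (noA E') X X' F)
    {f : List E' → k} (hf : ExL X' n f) : ExL X n fun l => f (l.map F) := by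
  obtain ⟨g, hg, ε, hε, h⟩ := hf
  obtain ⟨δ, hδ, h'⟩ := hF.uc ε hε
  refine ⟨fun l => g (l.map F), fun h0 l => hg h0 _, δ, hδ, fun l hl hs => ?_⟩
  show f (l.map F) = _
  rw [Sl.dl_map]
  refine h _ (by rw [List.length_map, hl]) ⟨fun y hy => ?_, fun y hy y' hy' => ?_⟩
  · obtain ⟨x, hx, rfl⟩ := List.mem_map.1 hy
    exact hF.mapsX (hs.1 x hx)
  · obtain ⟨x, hx, rfl⟩ := List.mem_map.1 hy
    obtain ⟨x', hx', rfl⟩ := List.mem_map.1 hy'
    exact h' x (hs.1 x hx) x' (hs.1 x' hx') (hs.2 x hx x' hx')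

/-- **Homotopy invariance** for list cochains. -/
theorem exL_htpy {X : Set E} {X' : Set E'} {n : ℕ} {D : ℝ → E → E'}
    (hD : IsHtpy (noA E) (noA E') X X' D) {f : List E' → k} (hf : CocL X' n f) :
    ExL X n fun l => f (l.map (D 1)) - f (l.map (D 0)) := by
  have h := congrArg (fun φ => φ (cls (noA E') (fun i => i.elim) f hf))
    (AS.pull_homotopy (χ := fun i : Empty => (i.elim : k)) hD n)
  rw [Sl.pull_cls, Sl.pull_cls, Sl.cls_eq_cls] at h
  exact h

end map

variable {M : Type} [MetricSpace M] {t : ℝ}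

/-- the constant path -/
noncomputable abbrev cP (x : M) : ℝ →ᵇ M := BoundedContinuousFunction.const ℝ x

theorem dist_cP (x y : M) : dist (cP x) (cP y) = dist x y :=
  le_antisymm ((BoundedContinuousFunction.dist_le dist_nonneg).2 fun _ => le_rfl)
    (BoundedContinuousFunction.dist_coe_le_dist (f := cP x) (g := cP y) 0)

theorem cP_mem_PP (x : M) (t : ℝ) : cP x ∈ PP M t :=
  ⟨fun u v => by simp, fun _ _ => rfl, fun _ _ => rfl⟩

theorem cP_mem_FL (x : M) (t : ℝ) : cP x ∈ FL M t :=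
  ⟨fun u v => by simp, fun _ _ => rfl, fun _ _ => rfl⟩

/-- both ends -/
def ends (t : ℝ) (w : ℝ →ᵇ M) : M × M := (w 0, w t)

theorem dist_ends (t : ℝ) (w w' : ℝ →ᵇ M) : dist (ends t w) (ends t w') ≤ dist w w' :=
  max_le (BoundedContinuousFunction.dist_coe_le_dist 0)
    (BoundedContinuousFunction.dist_coe_le_dist t)

@[simp] theorem ends_cP (t : ℝ) (x : M) : ends t (cP x) = (x, x) := rfl

theorem ends_FL {w : ℝ →ᵇ M} (h : w ∈ FL M t) {s : ℝ} (hs : t ≤ s) : ends s w = (w 0, w 0) :=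
  Prod.ext rfl (h.2.2 s hs)

theorem ends_PF {w : ℝ →ᵇ M} {b : M} (h : w ∈ H456.PF b t) {s : ℝ} (hs : t ≤ s) :
    ends s w = (w 0, b) := Prod.ext rfl (h.2.2 s hs)

/-- the path up to time `s` -/
noncomputable def cut (s : ℝ) (w : ℝ →ᵇ M) : ℝ →ᵇ M :=
  w.compContinuous ⟨fun u => min u s, by fun_prop⟩

@[simp] theorem cut_apply (s u : ℝ) (w : ℝ →ᵇ M) : cut s w u = w (min u s) := rfl

theorem cut_mem {w : ℝ →ᵇ M} (h : w ∈ PP M t) {s : ℝ} (hs : 0 ≤ s) (hst : s ≤ t) :
    cut s w ∈ PP M t := by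
  refine ⟨fun u v => ?_, fun u hu => ?_, fun u hu => ?_⟩
  · rw [cut_apply, cut_apply]
    refine (h.1 _ _).trans ?_
    exact (abs_min_sub_min_le_max _ _ _ _).trans (max_le le_rfl (by simp))
  · rw [cut_apply, cut_apply, min_eq_left (hu.trans hs), min_eq_left hs, h.2.1 u hu]
  · rw [cut_apply, cut_apply, min_eq_right (hst.trans hu), min_eq_right hst]

theorem cut_self {w : ℝ →ᵇ M} (h : w ∈ PP M t) : cut t w = w := by
  ext u
  rw [cut_apply]
  rcases le_total u t with h1 | h1
  · rw [min_eq_left h1]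
  · rw [min_eq_right h1, h.2.2 u h1]

theorem cut_zero {w : ℝ →ᵇ M} (h : w ∈ PP M t) : cut 0 w = cP (w 0) := by
  ext u
  rw [cut_apply]
  exact h.2.1 _ (min_le_right _ _)

theorem dist_cut {w w' : ℝ →ᵇ M} (h : w ∈ PP M t) (s s' : ℝ) :
    dist (cut s w) (cut s' w') ≤ |s - s'| + dist w w' := by
  rw [BoundedContinuousFunction.dist_le (by positivity)]
  intro u
  rw [cut_apply, cut_apply]
  refine (dist_triangle _ (w (min u s')) _).trans (add_le_add ?_ ?_)
  · refine (h.1 _ _).trans ?_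
    exact (abs_min_sub_min_le_max _ _ _ _).trans (max_le (by simp) le_rfl)
  · exact BoundedContinuousFunction.dist_coe_le_dist _

/-- **Shrinking.** -/
theorem htpy_PP (ht : 0 ≤ t) : IsHtpy (noA (ℝ →ᵇ M)) (noA (ℝ →ᵇ M)) (PP M t) (PP M t)
    (fun σ w => cut ((1 - σ) * t) w) where
  mapsX σ hσ w hw := cut_mem hw (mul_nonneg (by linarith [hσ.2]) ht)
    (by nlinarith [hσ.1, hσ.2, mul_nonneg hσ.1 ht])
  eqv _ _ i := i.elim
  uc ε hε := by
    refine ⟨ε / (t + 2), by positivity, fun s _ s' _ w hw w' _ hs hd => ?_⟩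
    refine (dist_cut hw _ _).trans_lt ?_
    have e1 : (1 - s) * t - (1 - s') * t = -((s - s') * t) := by ring
    rw [e1, abs_neg, abs_mul, abs_of_nonneg ht]
    have e2 : |s - s'| * t ≤ ε / (t + 2) * t := mul_le_mul_of_nonneg_right hs.le ht
    have e3 : ε / (t + 2) * (t + 2) = ε := by field_simp
    have e4 : 0 < ε / (t + 2) := by positivity
    nlinarith

theorem isMap_cP (t : ℝ) : IsMap (noA M) (noA (ℝ →ᵇ M)) (univ : Set M) (PP M t) cP :=
  isMap_of (fun x _ => cP_mem_PP x t) fun ε hε => ⟨ε, hε, fun x _ y _ h => by rwa [dist_cP]⟩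

theorem isMap_ev (t : ℝ) :
    IsMap (noA (ℝ →ᵇ M)) (noA M) (PP M t) (univ : Set M) (fun w : ℝ →ᵇ M => w 0) :=
  isMap_of (fun _ _ => mem_univ _) fun ε hε => ⟨ε, hε, fun _ _ _ _ h =>
    (BoundedContinuousFunction.dist_coe_le_dist 0).trans_lt h⟩

/-- **HX2, injectivity**: a cocycle of the free paths which is exact on the constant paths is
exact. -/
theorem exL_PP {k : Type} [Field k] (ht : 0 ≤ t) {n : ℕ} {f : List (ℝ →ᵇ M) → k}
    (hf : CocL (PP M t) n f) (h : ExL (univ : Set M) n fun l => f (l.map cP)) :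
    ExL (PP M t) n f := by
  have h1 := exL_htpy (htpy_PP ht) hf
  have h2 := exL_map (isMap_ev t) h
  obtain ⟨g, hg, ε, hε, h3⟩ := h1
  obtain ⟨g', hg', ε', hε', h4⟩ := h2
  refine ⟨fun l => g' l - g l, fun h0 l => by
    show g' l - g l = 0
    rw [hg h0, hg' h0, sub_zero], min ε ε',
    lt_min hε hε', fun l hl hs => ?_⟩
  have e1 := h3 l hl (hs.mono le_rfl (min_le_left _ _))
  have e2 := h4 l hl (hs.mono le_rfl (min_le_right _ _))
  have e3 : l.map (fun w => cut ((1 - 1) * t) w) = (l.map fun w : ℝ →ᵇ M => w 0).map cP := by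
    rw [List.map_map]
    refine List.map_congr_left fun w hw => ?_
    rw [sub_self, zero_mul, cut_zero (hs.1 w hw)]
    rfl
  have e4 : l.map (fun w => cut ((1 - 0) * t) w) = l := by
    refine (List.map_congr_left fun w hw => ?_).trans (List.map_id' l)
    rw [sub_zero, one_mul, cut_self (hs.1 w hw)]
  simp only [e3, e4, e2] at e1
  rw [dl_sub', ← e1, sub_sub_cancel]

/-- **HX2, surjectivity**: a cocycle of `M` extends to the free paths. -/
theorem cocL_PP {k : Type} [Field k] (t : ℝ) {n : ℕ} {f : List M → k}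
    (hf : CocL (univ : Set M) n f) :
    CocL (PP M t) n (fun l => f (l.map fun w : ℝ →ᵇ M => w 0)) ∧
      ∀ l : List M, f ((l.map cP).map fun w : ℝ →ᵇ M => w 0) = f l :=
  ⟨hf.map (isMap_ev t), fun l => by
    rw [List.map_map]
    congr 1
    exact List.map_id' l⟩

end Vale.Agent.P216.V893
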