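import Vale.Agent.P216.H929V.HSq
import Vale.Agent.P216.H539V.Pull
import Vale.Agent.P216.V893.PM
import Vale.Agent.P216.V775.VEnd

/-!
# P216-V, the systems of a metric space with a point

`vs M b : V775.VS ℝ`: germs of forms on `M`, on `M × M` and at `b`; the hybrid dgas of the free paths,
the free loops, the paths which end at `b`, the loops at `b`.
-/

set_option linter.unusedSectionVars false

open Set Filter Topology BoundedContinuousFunction

namespace Vale.Agent.P216.V893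

open Vale.Agent.P216.PS Vale.Agent.P216.MV337
open V1 V609 H285V H929V H539V V775

noncomputable section

/-! ### Two squares of squares -/

section

variable {E M N : Type} [PseudoMetricSpace E] [PseudoMetricSpace M] [PseudoMetricSpace N]
variable {π : E → N} {ρ : M → N} {A : Set M} {X : Set E}
variable {E' M' N' : Type} [PseudoMetricSpace E'] [PseudoMetricSpace M'] [PseudoMetricSpace N']
variable {π' : E' → N'} {ρ' : M' → N'} {A' : Set M'} {X' : Set E'}
variable {E'' M'' N'' : Type} [PseudoMetricSpace E''] [PseudoMetricSpace M'']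
  [PseudoMetricSpace N'']
variable {π'' : E'' → N''} {ρ'' : M'' → N''} {A'' : Set M''} {X'' : Set E''}
variable {f : E → E'} {ψ : M → M'} {f' : E' → E''} {ψ' : M' → M''}

theorem sqS (h : LSq π ρ A X π' ρ' A' X' f ψ) : SqS π ρ A X π' ρ' A' X' f ψ :=
  ⟨fun ε _ => h.sqD ε⟩

/-- commuting squares of squares -/
theorem hom_sqOn {E₁ M₁ N₁ : Type} [PseudoMetricSpace E₁] [PseudoMetricSpace M₁]
    [PseudoMetricSpace N₁] {π₁ : E₁ → N₁} {ρ₁ : M₁ → N₁} {A₁ : Set M₁} {X₁ : Set E₁}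
    {f₁ : E → E₁} {ψ₁ : M → M₁} {f₁' : E₁ → E''} {ψ₁' : M₁ → M''}
    (h : LSq π ρ A X π' ρ' A' X' f ψ) (h' : LSq π' ρ' A' X' π'' ρ'' A'' X'' f' ψ')
    (h₁ : LSq π ρ A X π₁ ρ₁ A₁ X₁ f₁ ψ₁) (h₁' : LSq π₁ ρ₁ A₁ X₁ π'' ρ'' A'' X'' f₁' ψ₁')
    (hf : EqOn (f' ∘ f) (f₁' ∘ f₁) X) (hψ : EqOn (ψ' ∘ ψ) (ψ₁' ∘ ψ₁) A)
    (z : HD π'' ρ'' A'' X'') : h.hom.f (h'.hom.f z) = h₁.hom.f (h₁'.hom.f z) :=
  (sqS h).nmp_sqOn (sqS h') (sqS h₁) (sqS h₁') hf hψ z

end

/-! ### The sets of paths -/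

variable {M : Type} [MetricSpace M]

theorem FL_sub_PP (t : ℝ) : FL M t ⊆ PP M t := fun _ h =>
  ⟨h.1, h.2.1, fun u hu => (h.2.2 u hu).trans (h.2.2 t le_rfl).symm⟩

theorem FL_mono' {t t' : ℝ} (h : t ≤ t') : FL M t ⊆ FL M t' :=
  fun _ hw => ⟨hw.1, hw.2.1, fun u hu => hw.2.2 u (h.trans hu)⟩

theorem P_sub_FL (b : M) (t : ℝ) : P b b t ⊆ FL M t := fun _ h =>
  ⟨h.1, fun u hu => (h.2.1 u hu).trans (h.2.1 0 le_rfl).symm,
    fun u hu => (h.2.2 u hu).trans (h.2.1 0 le_rfl).symm⟩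

theorem P_mono' {t t' : ℝ} {b : M} (h : t ≤ t') : P b b t ⊆ P b b t' :=
  fun _ hw => ⟨hw.1, hw.2.1, fun u hu => hw.2.2 u (h.trans hu)⟩

theorem dist_zero (w w' : ℝ →ᵇ M) : dist (w 0) (w' 0) ≤ dist w w' :=
  BoundedContinuousFunction.dist_coe_le_dist 0

theorem dist_dg (x y : M) : dist (x, x) (y, y) ≤ dist x y := max_le le_rfl le_rfl

theorem dist_pb (b x y : M) : dist (x, b) (y, b) ≤ dist x y :=
  max_le le_rfl (by rw [dist_self]; exact dist_nonneg)

/-! ### The bases -/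

variable (M) in
theorem um_fst : UM (univ : Set (M × M)) (univ : Set M) Prod.fst :=
  UM.of_lip (fun _ _ => mem_univ _) fun x _ y _ => le_max_left (dist x.1 y.1) _

variable (M) in
theorem um_snd : UM (univ : Set (M × M)) (univ : Set M) Prod.snd :=
  UM.of_lip (fun _ _ => mem_univ _) fun x _ y _ => le_max_right _ (dist x.2 y.2)

variable (M) in
/-- the diagonal -/
theorem um_dg : UM (univ : Set M) (univ : Set (M × M)) (fun x => (x, x)) :=
  UM.of_lip (fun _ _ => mem_univ _) fun x _ y _ => dist_dg x y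

/-- the points `(x, b)` -/
theorem um_pb (b : M) : UM (univ : Set M) (univ : Set (M × M)) (fun x => (x, b)) :=
  UM.of_lip (fun _ _ => mem_univ _) fun x _ y _ => dist_pb b x y

theorem um_const (b : M) : UM (univ : Set M) (univ : Set M) (fun _ => b) :=
  UM.of_lip (fun _ _ => mem_univ _) fun x _ y _ => by rw [dist_self]; exact dist_nonneg

/-- the point -/
theorem um_b (b : M) : UM ({b} : Set M) (univ : Set M) id :=
  UM.of_lip (fun _ _ => mem_univ _) fun _ _ _ _ => le_rfl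

/-! ### The squares -/

variable (M) in
/-- the constant paths -/
theorem lsq_cst (t : ℝ) : LSq (id : M → M) (id : M → M) univ univ (id : M × M → M × M) (ends t)
    (PP M t) univ (fun x => (x, x)) cP :=
  LSq.of_map (g := fun x => (x, x)) (fun _ _ => mem_univ _) (fun x _ y _ => dist_dg x y)
    (fun x _ => cP_mem_PP x t) (fun x _ y _ => (dist_cP x y).le) (fun _ _ => rfl) (fun _ _ => rfl)
    dist_dg

variable (M) in
/-- the free loops -/
theorem lsq_rFL (t : ℝ) : LSq (id : M → M) (fun w : ℝ →ᵇ M => w 0) (FL M t) univ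
    (id : M × M → M × M) (ends t) (PP M t) univ (fun x => (x, x)) id :=
  LSq.of_map (g := fun x => (x, x)) (fun _ _ => mem_univ _) (fun x _ y _ => dist_dg x y)
    (fun _ h => FL_sub_PP t h) (fun _ _ _ _ => le_rfl) (fun _ _ => rfl)
    (fun _ h => ends_FL h le_rfl) dist_dg

/-- the paths which end at `b` -/
theorem lsq_rPF (b : M) (t : ℝ) : LSq (id : M → M) (fun w : ℝ →ᵇ M => w 0) (H456.PF b t) univ
    (id : M × M → M × M) (ends t) (PP M t) univ (fun x => (x, b)) id :=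
  LSq.of_map (g := fun x => (x, b)) (fun _ _ => mem_univ _) (fun x _ y _ => dist_pb b x y)
    (fun _ h => H456.PF_subset_PP h) (fun _ _ _ _ => le_rfl) (fun _ _ => rfl)
    (fun _ h => ends_PF h le_rfl) (dist_pb b)

/-- the based loops in the free loops -/
theorem lsq_oFL (b : M) (t : ℝ) : LSq (id : M → M) (fun w : ℝ →ᵇ M => w 0) (P b b t) {b}
    (id : M → M) (fun w : ℝ →ᵇ M => w 0) (FL M t) univ id id :=
  LSq.incl (P_sub_FL b t) (subset_univ _)

/-- the based loops in the paths which end at `b` -/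
theorem lsq_oPF (b : M) (t : ℝ) : LSq (id : M → M) (fun w : ℝ →ᵇ M => w 0) (P b b t) {b}
    (id : M → M) (fun w : ℝ →ᵇ M => w 0) (H456.PF b t) univ id id :=
  LSq.incl H456.P_subset_PF (subset_univ _)

/-! ### The instance -/

variable (M) in
/-- the free loops -/
def sFL : NSysO.{1} (gCD (univ : Set M)) :=
  hSys (fun w : ℝ →ᵇ M => w 0) univ (fun t => FL M t) fun _ _ h => FL_mono' h

/-- the paths which end at `b` -/
def sPF (b : M) : NSysO.{1} (gCD (univ : Set M)) :=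
  hSys (fun w : ℝ →ᵇ M => w 0) univ (fun t => H456.PF b t) fun _ _ h => H456.PF_mono h

/-- the loops at `b` -/
def sOm (b : M) : NSysO.{1} (gCD ({b} : Set M)) :=
  hSys (fun w : ℝ →ᵇ M => w 0) {b} (fun t => P b b t) fun _ _ h => P_mono' h

variable (M) in
/-- **The systems of a metric space with a point.** -/
def vs (b : M) : VS.{1, 1} ℝ where
  X := gCD (univ : Set M)
  X₂ := gCD (univ : Set (M × M))
  Xb := gCD ({b} : Set M)
  pr₀ := gHm (um_fst M)
  pr₁ := gHm (um_snd M)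
  diag := gHm (um_dg M)
  ptb := gHm (um_pb b)
  ε := gHm (um_b b)
  diag_pr₀ a := (gmap_comp_eqOn (um_fst M) (um_dg M) (UM.id _) (fun _ _ => rfl) a).symm.trans
    (gmap_id a)
  diag_pr₁ a := (gmap_comp_eqOn (um_snd M) (um_dg M) (UM.id _) (fun _ _ => rfl) a).symm.trans
    (gmap_id a)
  ptb_pr₀ a := (gmap_comp_eqOn (um_fst M) (um_pb b) (UM.id _) (fun _ _ => rfl) a).symm.trans
    (gmap_id a)
  ptb_pr₁ p a ha :=
    (gmap_comp_eqOn (um_snd M) (um_pb b) (um_const b) (fun _ _ => rfl) a).symm.trans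
      (gmap_const (um_const b) (fun _ _ => rfl) ha)
  ε_van p a ha := gmap_const (um_b b) (fun _ h => h) ha
  ε_eq a := (gmap_comp_eqOn (um_dg M) (um_b b) ((um_dg M).comp (um_b b)) (fun _ _ => rfl)
      a).symm.trans (gmap_comp_eqOn (um_pb b) (um_b b) ((um_dg M).comp (um_b b)) (fun x hx => by
        obtain rfl : x = b := hx
        rfl) a)
  PP t := hND id (ends t) (PP M t) univ
  MM := hND id id univ univ
  FL := sFL M
  PF := sPF b
  Om := sOm b
  cst t := (lsq_cst M t).nmp (um_dg M)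
  rFL t := (lsq_rFL M t).nmp (um_dg M)
  rPF t := (lsq_rPF b t).nmp (um_pb b)
  oFL t := (lsq_oFL b t).nmp (um_b b)
  oPF t := (lsq_oPF b t).nmp (um_b b)
  o_eq t a := hom_sqOn (lsq_oFL b t) (lsq_rFL M t) (lsq_oPF b t) (lsq_rPF b t) (fun x hx => by
    obtain rfl : x = b := hx
    rfl) (fun _ _ => rfl) a
  oFL_ρ s t h a := hom_sqOn (lsq_oFL b t) (LSq.incl (FL_mono' h) Subset.rfl)
    (LSq.incl (P_mono' h) Subset.rfl) (lsq_oFL b s) (fun _ _ => rfl) (fun _ _ => rfl) a
  oPF_ρ s t h a := hom_sqOn (lsq_oPF b t) (LSq.incl (H456.PF_mono h) Subset.rfl)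
    (LSq.incl (P_mono' h) Subset.rfl) (lsq_oPF b s) (fun _ _ => rfl) (fun _ _ => rfl) a

end

end Vale.Agent.P216.V893
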