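import Vale.Agent.P216.V609.NDga

/-!
# P216-V, C1: quasi-isomorphisms of dgas

`Qiso φ`: `φ` is bijective on cohomology.  `Qiso.exMap`: adjoining an odd generator `e`,
`d e = x` central, preserves quasi-isomorphisms.
-/

namespace Vale.Agent.P216.V893

open Vale.Agent.P216.V609

variable {k : Type*} [Field k] {A A' A'' : Type*} [Ring A] [Algebra k A] [Ring A'] [Algebra k A']
  [Ring A''] [Algebra k A''] {C : NDga k A} {C' : NDga k A'} {C'' : NDga k A''}

/-- `φ` is bijective on cohomology. -/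
structure Qiso (φ : NDga.Hom C C') : Prop where
  inj : ∀ {n : ℕ} {a : A}, a ∈ C.Z n → φ.f a ∈ C'.B n → a ∈ C.B n
  surj : ∀ {n : ℕ} {a' : A'}, a' ∈ C'.Z n → ∃ a ∈ C.Z n, a' - φ.f a ∈ C'.B n

namespace Qiso

variable {φ : NDga.Hom C C'}

theorem id (C : NDga k A) : Qiso (NDga.Hom.id C) :=
  ⟨fun _ h => h, fun {n a'} h => ⟨a', h, by
    show a' - a' ∈ C.B n
    rw [sub_self]; exact Submodule.zero_mem _⟩⟩

theorem comp {ψ : NDga.Hom C' C''} (hψ : Qiso ψ) (hφ : Qiso φ) : Qiso (ψ.comp φ) where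
  inj ha h := hφ.inj ha (hψ.inj (φ.map_Z ha) h)
  surj := by
    intro n a'' h
    obtain ⟨a', ha', h'⟩ := hψ.surj h
    obtain ⟨a, ha, h''⟩ := hφ.surj ha'
    refine ⟨a, ha, ?_⟩
    have e : a'' - (ψ.comp φ).f a = (a'' - ψ.f a') + ψ.f (a' - φ.f a) := by
      rw [map_sub, NDga.Hom.comp_apply]
      abel
    rw [e]
    exact Submodule.add_mem _ h' (ψ.map_B h'')

/-- closed and exact in the target implies exact -/
theorem exists_d (hφ : Qiso φ) {n : ℕ} {z : A} (hz : z ∈ C.Z (n + 1)) (h : φ.f z ∈ C'.B (n + 1)) :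
    ∃ a ∈ C.deg n, C.d a = z := hφ.inj hz h

theorem inj_s (hφ : Qiso φ) {l n : ℕ} {a : A} (ha : a ∈ C.degS l (n + 1)) (hd : C.d a = 0)
    {b : A'} (hb : b ∈ C'.degS l n) (h : C'.d b = φ.f a) : ∃ c ∈ C.degS l n, C.d c = a := by
  rcases C.mem_degS ha with rfl | ⟨j, hj, ha⟩
  · exact ⟨0, Submodule.zero_mem _, map_zero _⟩
  rcases j with _ | i
  · have hb0 : b = 0 := by
      rcases C'.mem_degS hb with hb | ⟨j, hj', _⟩
      · exact hb
      · omega
    have h1 : a ∈ C.B 0 := hφ.inj ⟨ha, hd⟩ (by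
      rw [← h, hb0, map_zero]
      exact Submodule.zero_mem _)
    have h2 : a = 0 := h1
    exact ⟨0, Submodule.zero_mem _, by rw [h2, map_zero]⟩
  · have hb' : b ∈ C'.deg i := by
      rcases C'.mem_degS hb with hb | ⟨j, hj', hb⟩
      · rw [hb]; exact Submodule.zero_mem _
      · have : j = i := by omega
        exact this ▸ hb
    obtain ⟨c, hc, hc'⟩ := hφ.exists_d (n := i) ⟨ha, hd⟩ ⟨b, hb', h⟩
    exact ⟨c, C.degS_of (by omega) hc, hc'⟩

theorem surj_s (hφ : Qiso φ) {l n : ℕ} {b : A'} (hb : b ∈ C'.degS l n) (hd : C'.d b = 0) :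
    ∃ z ∈ C.degS l n, C.d z = 0 ∧ ∃ w ∈ C'.degS (l + 1) n, C'.d w = b - φ.f z := by
  rcases C'.mem_degS hb with rfl | ⟨j, hj, hb⟩
  · exact ⟨0, Submodule.zero_mem _, map_zero _, 0, Submodule.zero_mem _, by simp⟩
  obtain ⟨z, hz, hz'⟩ := hφ.surj (n := j) ⟨hb, hd⟩
  refine ⟨z, C.degS_of hj hz.1, hz.2, ?_⟩
  rcases j with _ | i
  · have h0 : b - φ.f z = 0 := hz'
    exact ⟨0, Submodule.zero_mem _, by rw [map_zero, h0]⟩
  · obtain ⟨w, hw, hw'⟩ := hz'
    exact ⟨w, C'.degS_of (by omega) hw, hw'⟩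

theorem degS_succ (C : NDga k A) {l n : ℕ} {w : A} (hw : w ∈ C.degS (l + 1) (n + 1)) :
    w ∈ C.degS l n := by
  rcases C.mem_degS hw with rfl | ⟨j, hj, h⟩
  · exact Submodule.zero_mem _
  · exact C.degS_of (by omega) h

theorem sg_mul_mem (C : NDga k A) {l n : ℕ} {w x : A} (hw : w ∈ C.degS l n)
    (hx : x ∈ C.deg l) : C.sg w * x ∈ C.deg n := by
  rcases C.mem_degS hw with rfl | ⟨j, hj, h⟩
  · rw [map_zero, zero_mul]; exact Submodule.zero_mem _
  · rw [C.sg_deg h, smul_mul_assoc]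
    exact hj ▸ Submodule.smul_mem _ _ (C.mul_mem h hx)

theorem sg_mul_mem' (C : NDga k A) {l n : ℕ} {w x : A} (hw : w ∈ C.degS l n)
    (hx : x ∈ C.deg (l + 1)) : C.sg w * x ∈ C.deg (n + 1) := by
  rcases C.mem_degS hw with rfl | ⟨j, hj, h⟩
  · rw [map_zero, zero_mul]; exact Submodule.zero_mem _
  · rw [C.sg_deg h, smul_mul_assoc, hj, add_assoc]
    exact Submodule.smul_mem _ _ (C.mul_mem h hx)

theorem d_sg_mul (C : NDga k A) {w x : A} (hdx : C.d x = 0) :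
    C.d (C.sg w * x) = -(C.sg (C.d w) * x) := by
  rw [C.leib, hdx, mul_zero, add_zero, C.sg_d, neg_mul, neg_neg]

/-- **Quasi-isomorphisms are stable under `ex`.** -/
theorem exMap (hφ : Qiso φ) {l : ℕ} (hl : Odd l) {x : A}
    (hx : x ∈ C.deg (l + 1)) (hdx : C.d x = 0) (hxc : ∀ b, x * b = b * x) {x' : A'}
    (hx' : x' ∈ C'.deg (l + 1)) (hdx' : C'.d x' = 0) (hxc' : ∀ b, x' * b = b * x')
    (h : φ.f x = x') : Qiso (φ.exMap hl hx hdx hxc hx' hdx' hxc' h) where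
  inj := by
    rintro n a ⟨⟨ha1, ha2⟩, hda⟩ hB
    have hda1 : C.d a.1 + C.sg a.2 * x = 0 := congrArg NEx.fst hda
    have hda2 : C.d a.2 = 0 := congrArg NEx.snd hda
    rcases n with _ | n
    · have h0 : (φ.exMap hl hx hdx hxc hx' hdx' hxc' h).f a = 0 := hB
      have h2 : a.2 = 0 := by
        rcases C.mem_degS ha2 with h2 | ⟨j, hj, _⟩
        · exact h2
        · obtain ⟨m, rfl⟩ := hl
          omega
      rw [h2, map_zero, zero_mul, add_zero] at hda1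
      have h1 : a.1 ∈ C.B 0 := hφ.inj ⟨ha1, hda1⟩ (by
        have h3 : φ.f a.1 = 0 := congrArg NEx.fst h0
        rw [h3]; exact Submodule.zero_mem _)
      show a = 0
      exact NEx.ext h1 h2
    · obtain ⟨b, ⟨hb1, hb2⟩, hdb⟩ := hB
      have hdb1 : C'.d b.1 + C'.sg b.2 * x' = φ.f a.1 := congrArg NEx.fst hdb
      have hdb2 : C'.d b.2 = φ.f a.2 := congrArg NEx.snd hdb
      obtain ⟨c, hc, hdc⟩ := hφ.inj_s ha2 hda2 hb2 hdb2
      obtain ⟨z, hz, hdz, w, hw, hdw⟩ := hφ.surj_s (b := b.2 - φ.f c) (l := l) (n := n)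
        (Submodule.sub_mem _ hb2 (by
          rcases C.mem_degS hc with rfl | ⟨j, hj, hc⟩
          · rw [map_zero]; exact Submodule.zero_mem _
          · exact C'.degS_of hj (φ.deg hc)))
        (by rw [map_sub, hdb2, ← φ.d, hdc, sub_self])
      have h1 : a.1 - C.sg (c + z) * x ∈ C.Z (n + 1) := by
        refine ⟨Submodule.sub_mem _ ha1 (sg_mul_mem' C (Submodule.add_mem _ hc hz) hx), ?_⟩
        show C.d (a.1 - C.sg (c + z) * x) = 0
        rw [map_sub, d_sg_mul C hdx, map_add, hdc, hdz, add_zero, sub_neg_eq_add, hda1]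
      have h2 : φ.f (a.1 - C.sg (c + z) * x) ∈ C'.B (n + 1) := by
        refine ⟨b.1 - C'.sg w * x', Submodule.sub_mem _ hb1 (sg_mul_mem C' hw hx'), ?_⟩
        rw [map_sub, d_sg_mul C' hdx', hdw, map_sub φ.f, ← hdb1, map_mul, φ.sg, h, map_add,
          map_sub, map_sub, map_add]
        rw [sub_mul, sub_mul, add_mul]
        abel
      obtain ⟨c1, hc1, hdc1⟩ := hφ.exists_d h1 h2
      refine ⟨⟨c1, c + z⟩, ⟨hc1, Submodule.add_mem _ hc hz⟩, ?_⟩
      ext
      · show C.d c1 + C.sg (c + z) * x = a.1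
        rw [hdc1, sub_add_cancel]
      · show C.d (c + z) = a.2
        rw [map_add, hdc, hdz, add_zero]
  surj := by
    rintro n a ⟨⟨ha1, ha2⟩, hda⟩
    have hda1 : C'.d a.1 + C'.sg a.2 * x' = 0 := congrArg NEx.fst hda
    have hda2 : C'.d a.2 = 0 := congrArg NEx.snd hda
    obtain ⟨z, hz, hdz, w, hw, hdw⟩ := hφ.surj_s ha2 hda2
    have h1 : C.sg z * x ∈ C.Z (n + 1) := by
      refine ⟨sg_mul_mem' C hz hx, ?_⟩
      show C.d (C.sg z * x) = 0
      rw [d_sg_mul C hdx, hdz, map_zero, zero_mul, neg_zero]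
    have h2 : φ.f (C.sg z * x) ∈ C'.B (n + 1) := by
      refine ⟨-(a.1 - C'.sg w * x'), Submodule.neg_mem _
        (Submodule.sub_mem _ ha1 (sg_mul_mem C' hw hx')), ?_⟩
      rw [map_neg, map_sub, d_sg_mul C' hdx', hdw, map_mul, φ.sg, h, map_sub, sub_mul,
        eq_neg_of_add_eq_zero_left hda1]
      abel
    obtain ⟨c, hc, hdc⟩ := hφ.exists_d h1 h2
    obtain ⟨z1, hz1, hz1'⟩ := hφ.surj (n := n) (a' := a.1 - C'.sg w * x' + φ.f c)
      ⟨Submodule.add_mem _ (Submodule.sub_mem _ ha1 (sg_mul_mem C' hw hx')) (φ.deg hc), by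
        show C'.d _ = 0
        rw [map_add, map_sub, d_sg_mul C' hdx', hdw, ← φ.d, hdc, map_mul, φ.sg, h, map_sub,
          sub_mul, eq_neg_of_add_eq_zero_left hda1]
        abel⟩
    refine ⟨⟨z1 - c, z⟩, ⟨⟨Submodule.sub_mem _ hz1.1 hc, hz⟩, ?_⟩, ?_⟩
    · show (C.ex hl hx hdx hxc).d ⟨z1 - c, z⟩ = 0
      ext
      · show C.d (z1 - c) + C.sg z * x = 0
        have h3 : C.d z1 = 0 := hz1.2
        rw [map_sub, h3, hdc, zero_sub, neg_add_cancel]
      · exact hdz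
    · rcases n with _ | n
      · have hw0 : w = 0 := by
          rcases C'.mem_degS hw with h3 | ⟨j, hj, _⟩
          · exact h3
          · omega
        have h4 : a.1 - C'.sg w * x' + φ.f c - φ.f z1 = 0 := hz1'
        rw [hw0, map_zero] at h4 hdw
        rw [zero_mul, sub_zero] at h4
        show a - (φ.exMap hl hx hdx hxc hx' hdx' hxc' h).f ⟨z1 - c, z⟩ = 0
        ext
        · show a.1 - φ.f (z1 - c) = 0
          rw [map_sub, ← h4]
          abel
        · exact hdw.symm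
      · obtain ⟨v, hv, hdv⟩ := hz1'
        refine ⟨⟨v, w⟩, ⟨hv, degS_succ C' hw⟩, ?_⟩
        ext
        · show C'.d v + C'.sg w * x' = a.1 - φ.f (z1 - c)
          rw [hdv, map_sub]
          abel
        · exact hdw

/-- the same over a map of the bases -/
theorem exMapC {B B' : Type*} [Ring B] [Algebra k B] [Ring B'] [Algebra k B'] {R : Cdga k B}
    {R' : Cdga k B'} (hφ : Qiso φ) (ι : CHom R C) (ι' : CHom R' C') {l : ℕ} (hl : Odd l)
    {x : B} (hx : x ∈ R.deg (l + 1)) (hdx : R.d x = 0) {x' : B'} (hx' : x' ∈ R'.deg (l + 1))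
    (hdx' : R'.d x' = 0) (h : φ.f (ι.f x) = ι'.f x') :
    Qiso (ι.exMap ι' φ hl hx hdx hx' hdx' h) := hφ.exMap hl _ _ _ _ _ _ h

end Qiso

end Vale.Agent.P216.V893
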