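import Vale.Agent.P216.H929V.HD

/-!
# P216-V, squares of measures with lists

`SqD`: maps `g` of the supports, `f` of the points of the lists, `h` of the bases, with the
hypotheses only on the sets. `SqD.map`: push forward is a map of diffeologies. `SqD.pull`: the
morphism of the germs, `SqD.pull_evD`.
-/

set_option linter.unusedSectionVars false

open Set Filter Topology
open scoped ContDiff

namespace Vale.Agent.P216.V893

open Vale.Agent.P231.Fm V1 V609 H285V H929V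

noncomputable section

section pushforward

variable {E E' : Type}

/-- push forward of a measure with support in `F` -/
theorem mapDomain_eq {g : E' → E} {F : Finset E'} {μ : E' →₀ ℝ} (h : ∀ x, x ∉ F → μ x = 0) :
    μ.mapDomain g = ∑ x ∈ F, Finsupp.single (g x) (μ x) := by
  rw [Finsupp.mapDomain, Finsupp.sum]
  refine Finset.sum_subset (fun x hx => ?_) fun x _ hx => ?_
  · by_contra h'
    exact (Finsupp.mem_support_iff.1 hx) (h x h')
  · rw [Finsupp.notMem_support_iff.1 hx, Finsupp.single_zero]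

theorem sum_mapDomain [DecidableEq E] {g : E' → E} {F : Finset E'} {μ : E' →₀ ℝ}
    (h : ∀ x, x ∉ F → μ x = 0) : ∑ z ∈ F.image g, μ.mapDomain g z = ∑ x ∈ F, μ x := by
  rw [mapDomain_eq h]
  simp only [Finsupp.finsetSum_apply]
  rw [Finset.sum_comm]
  refine Finset.sum_congr rfl fun x hx => ?_
  rw [Finset.sum_eq_single (g x)]
  · rw [Finsupp.single_eq_same]
  · intro z _ hz
    exact Finsupp.single_eq_of_ne (fun e => hz e)
  · intro h1
    exact absurd (Finset.mem_image_of_mem g hx) h1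

theorem mapDomain_out [DecidableEq E] {g : E' → E} {F : Finset E'} {μ : E' →₀ ℝ}
    (h : ∀ x, x ∉ F → μ x = 0) {z : E} (hz : z ∉ F.image g) : μ.mapDomain g z = 0 := by
  rw [mapDomain_eq h, Finsupp.finsetSum_apply]
  refine Finset.sum_eq_zero fun x hx => ?_
  exact Finsupp.single_eq_of_ne (fun e => hz (e ▸ Finset.mem_image_of_mem g hx))

variable {V : Type} [NormedAddCommGroup V] [NormedSpace ℝ V]

/-- the coordinates of the push forward are smooth -/
theorem sm_mapDomain {g : E' → E} {F : Finset E'} {u : V → (E' →₀ ℝ)} {s : V}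
    (ho : ∀ᶠ y in 𝓝 s, ∀ x, x ∉ F → u y x = 0) (hs : ∀ x, Sm (fun y => u y x) s) (z : E) :
    Sm (fun y => (u y).mapDomain g z) s := by
  classical
  have h1 : Sm (fun y => ∑ x ∈ F, if g x = z then u y x else 0) s := by
    have h2 : ∀ᶠ y in 𝓝 s, ∀ x ∈ F, ContDiffAt ℝ ∞ (fun y => if g x = z then u y x else 0) y := by
      refine (Filter.eventually_all_finset F).2 fun x _ => ?_
      by_cases hx : g x = z
      · simp only [hx, if_true]
        exact hs x
      · simp only [hx, if_false]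
        exact Sm.of_contDiff contDiff_const s
    filter_upwards [h2] with y hy
    exact ContDiffAt.sum hy
  refine h1.congr ?_
  filter_upwards [ho] with y hy
  rw [mapDomain_eq hy, Finsupp.finsetSum_apply]
  refine Finset.sum_congr rfl fun x _ => ?_
  rw [Finsupp.single_apply]

variable [PseudoMetricSpace E] [PseudoMetricSpace E']

theorem SmF.image [DecidableEq E] {X : Set E} {X' : Set E'} {ε : ℝ} {g : E' → E} {F : Finset E'}
    (h : SmF X' ε F) (gX : MapsTo g X' X)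
    (gl : ∀ x ∈ X', ∀ y ∈ X', dist (g x) (g y) ≤ dist x y) : SmF X ε (F.image g) := by
  refine ⟨fun z hz => ?_, fun z hz z' hz' => ?_⟩
  · obtain ⟨x, hx, rfl⟩ := Finset.mem_image.1 hz
    exact gX (h.1 x hx)
  · obtain ⟨x, hx, rfl⟩ := Finset.mem_image.1 hz
    obtain ⟨x', hx', rfl⟩ := Finset.mem_image.1 hz'
    exact (gl x (h.1 x hx) x' (h.1 x' hx')).trans_lt (h.2 x hx x' hx')

/-- **push forward of small measures** -/
theorem map_DM {X : Set E} {X' : Set E'} {ε : ℝ} {g : E' → E} (gX : MapsTo g X' X)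
    (gl : ∀ x ∈ X', ∀ y ∈ X', dist (g x) (g y) ≤ dist x y) :
    (DM X' ε).Map (DM X ε) (fun μ => μ.mapDomain g) := by
  classical
  rintro V _ _ _ u s ⟨F, h⟩
  refine ⟨F.image g, SmF.image h.smF gX gl, ?_, ?_, fun z => sm_mapDomain h.out h.sm z⟩
  · filter_upwards [h.out] with y hy z hz
    exact mapDomain_out hy hz
  · filter_upwards [h.out, h.sum] with y hy hy'
    exact (sum_mapDomain hy).trans hy'

/-- push forward of germs of forms -/
theorem map_vr {X : Set E} {X' : Set E'} {g : E' → E} (gX : MapsTo g X' X)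
    (gl : ∀ x ∈ X', ∀ y ∈ X', dist (g x) (g y) ≤ dist x y) :
    Fam.Map (vr X') (vr X) (fun μ => μ.mapDomain g) :=
  fun ε hε => ⟨ε, hε, map_DM gX gl⟩

end pushforward

variable {E M N : Type} [PseudoMetricSpace E] [PseudoMetricSpace M] [PseudoMetricSpace N]
variable {E' M' N' : Type} [PseudoMetricSpace E'] [PseudoMetricSpace M'] [PseudoMetricSpace N']
variable {E'' M'' N'' : Type} [PseudoMetricSpace E''] [PseudoMetricSpace M'']
  [PseudoMetricSpace N'']

/-- **Squares.** -/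
structure SqD (π : E → N) (ρ : M → N) (A : Set M) (X : Set E) (π' : E' → N') (ρ' : M' → N')
    (A' : Set M') (X' : Set E') (g : E' → E) (f : M' → M) (h : N' → N) : Prop where
  gX : MapsTo g X' X
  fA : MapsTo f A' A
  gl : ∀ x ∈ X', ∀ y ∈ X', dist (g x) (g y) ≤ dist x y
  fl : ∀ x ∈ A', ∀ y ∈ A', dist (f x) (f y) ≤ dist x y
  hl : ∀ x y, dist (h x) (h y) ≤ dist x y
  sg : ∀ x ∈ X', π (g x) = h (π' x)
  sf : ∀ x ∈ A', ρ (f x) = h (ρ' x)

/-- the push forward of measures with lists -/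
def mpP (g : E' → E) (f : M' → M) (p : MP E' M') : MP E M := (p.1.mapDomain g, p.2.map f)

theorem sq_mpP (g : E' → E) (f : M' → M) : Sq (mpP g f) := Sq.mk _ _

namespace SqD

variable {π : E → N} {ρ : M → N} {A : Set M} {X : Set E}
variable {π' : E' → N'} {ρ' : M' → N'} {A' : Set M'} {X' : Set E'}
variable {π'' : E'' → N''} {ρ'' : M'' → N''} {A'' : Set M''} {X'' : Set E''}
variable {g : E' → E} {f : M' → M} {h : N' → N}
variable {g' : E'' → E'} {f' : M'' → M'} {h' : N'' → N'}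

/-- **push forward of small measures with lists** -/
theorem map (S : SqD π ρ A X π' ρ' A' X' g f h) (ε : ℝ) :
    (DT π' ρ' A' X' ε).Map (DT π ρ A X ε) (mpP g f) := by
  classical
  rintro V _ _ _ u s ⟨F, H⟩
  refine ⟨F.image g, SmF.image H.smF S.gX S.gl, ⟨fun y hy => ?_, fun y hy y' hy' => ?_⟩,
    fun y hy z hz => ?_, ?_, ?_, ?_, fun z => sm_mapDomain H.out H.sm z⟩
  · obtain ⟨x, hx, rfl⟩ := List.mem_map.1 hy
    exact S.fA (H.smA.1 x hx)
  · obtain ⟨x, hx, rfl⟩ := List.mem_map.1 hy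
    obtain ⟨x', hx', rfl⟩ := List.mem_map.1 hy'
    exact (S.fl x (H.smA.1 x hx) x' (H.smA.1 x' hx')).trans_lt (H.smA.2 x hx x' hx')
  · obtain ⟨x, hx, rfl⟩ := List.mem_map.1 hy
    obtain ⟨w, hw, rfl⟩ := Finset.mem_image.1 hz
    rw [S.sf x (H.smA.1 x hx), S.sg w (H.smF.1 w hw)]
    exact (S.hl _ _).trans_lt (H.near' x hx w hw)
  · filter_upwards [H.cst] with y hy
    show (u y).2.map f = (u s).2.map f
    rw [hy]
  · filter_upwards [H.out] with y hy z hz
    exact mapDomain_out hy hz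
  · filter_upwards [H.out, H.sum] with y hy hy'
    exact (sum_mapDomain hy).trans hy'

/-- composition of squares -/
theorem comp (S : SqD π ρ A X π' ρ' A' X' g f h) (S' : SqD π' ρ' A' X' π'' ρ'' A'' X'' g' f' h') :
    SqD π ρ A X π'' ρ'' A'' X'' (g ∘ g') (f ∘ f') (h ∘ h') where
  gX := S.gX.comp S'.gX
  fA := S.fA.comp S'.fA
  gl x hx y hy := (S.gl _ (S'.gX hx) _ (S'.gX hy)).trans (S'.gl x hx y hy)
  fl x hx y hy := (S.fl _ (S'.fA hx) _ (S'.fA hy)).trans (S'.fl x hx y hy)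
  hl x y := (S.hl _ _).trans (S'.hl x y)
  sg x hx := (S.sg _ (S'.gX hx)).trans (congrArg h (S'.sg x hx))
  sf x hx := (S.sf _ (S'.fA hx)).trans (congrArg h (S'.sf x hx))

/-- **The morphism of the germs.** -/
def pull (S : SqD π ρ A X π' ρ' A' X' g f h) : NDga.Hom (hD π ρ A X) (hD π' ρ' A' X') :=
  pullD (sq_mpP g f) fun _ _ => S.map _

/-- the morphism of the bases -/
def pullB (S : SqD π ρ A X π' ρ' A' X' g f h) : Cdga.Hom (vr X).cdga (vr X').cdga :=
  Fam.pull (fun μ => μ.mapDomain g) (map_vr S.gX S.gl)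

theorem pull_evD (S : SqD π ρ A X π' ρ' A' X' g f h) (z : GA X) :
    S.pull.f ((evD π ρ A X).f z) = (evD π' ρ' A' X').f (S.pullB.f z) :=
  pullD_evD (sq_mpP g f) _ (fun ε _ => map_DM S.gX S.gl) _ (fun _ => rfl) z

theorem mpP_comp (p : MP E'' M'') : mpP g f (mpP g' f' p) = mpP (g ∘ g') (f ∘ f') p :=
  Prod.ext (Finsupp.mapDomain_comp (f := g') (g := g)).symm (List.map_map ..)

/-- **Functoriality.** -/
theorem pull_comp (S : SqD π ρ A X π' ρ' A' X' g f h)
    (S' : SqD π' ρ' A' X' π'' ρ'' A'' X'' g' f' h')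
    {g'' : E'' → E} {f'' : M'' → M} {h'' : N'' → N} (S'' : SqD π ρ A X π'' ρ'' A'' X'' g'' f'' h'')
    (eg : ∀ x, g (g' x) = g'' x) (ef : ∀ x, f (f' x) = f'' x) (z : HD π ρ A X) :
    S'.pull.f (S.pull.f z) = S''.pull.f z := by
  have e : mpP g f ∘ mpP g' f' = mpP g'' f'' := by
    funext p
    rw [Function.comp_apply, mpP_comp, show g ∘ g' = g'' from funext eg,
      show f ∘ f' = f'' from funext ef]
  exact (pullD_comp (sq_mpP g f) (fun ε _ => S.map ε) (sq_mpP g' f') (fun ε _ => S'.map ε)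
    ((sq_mpP g f).comp (sq_mpP g' f')) (fun ε _ => Dif.Map.comp (S.map ε) (S'.map ε)) z).symm.trans
      (pullD_congr e _ _ _ _ z)

/-- the same for squares of squares -/
theorem pull_pull {E₁ M₁ N₁ : Type} [PseudoMetricSpace E₁] [PseudoMetricSpace M₁]
    [PseudoMetricSpace N₁] {π₁ : E₁ → N₁} {ρ₁ : M₁ → N₁} {A₁ : Set M₁} {X₁ : Set E₁}
    (S : SqD π ρ A X π' ρ' A' X' g f h) (S' : SqD π' ρ' A' X' π'' ρ'' A'' X'' g' f' h')
    {g₁ : E₁ → E} {f₁ : M₁ → M} {h₁ : N₁ → N} (S₁ : SqD π ρ A X π₁ ρ₁ A₁ X₁ g₁ f₁ h₁)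
    {g₂ : E'' → E₁} {f₂ : M'' → M₁} {h₂ : N'' → N₁}
    (S₂ : SqD π₁ ρ₁ A₁ X₁ π'' ρ'' A'' X'' g₂ f₂ h₂)
    (eg : ∀ x, g (g' x) = g₁ (g₂ x)) (ef : ∀ x, f (f' x) = f₁ (f₂ x)) (z : HD π ρ A X) :
    S'.pull.f (S.pull.f z) = S₂.pull.f (S₁.pull.f z) :=
  (pull_comp S S' (S₁.comp S₂) eg ef z).trans
    (pull_comp S₁ S₂ (S₁.comp S₂) (fun _ => rfl) (fun _ => rfl) z).symm

end SqD

/-! ### The bases -/

/-- pull back of germs of forms along a map of the points -/
def gM {X : Set E} {X' : Set E'} {g : E' → E} (gX : MapsTo g X' X)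
    (gl : ∀ x ∈ X', ∀ y ∈ X', dist (g x) (g y) ≤ dist x y) : Cdga.Hom (vr X).cdga (vr X').cdga :=
  Fam.pull (fun μ => μ.mapDomain g) (map_vr gX gl)

theorem gM_comp {X : Set E} {X' : Set E'} {X'' : Set E''} {g : E' → E} {g' : E'' → E'}
    {g'' : E'' → E} (gX : MapsTo g X' X) (gl : ∀ x ∈ X', ∀ y ∈ X', dist (g x) (g y) ≤ dist x y)
    (gX' : MapsTo g' X'' X') (gl' : ∀ x ∈ X'', ∀ y ∈ X'', dist (g' x) (g' y) ≤ dist x y)
    (gX'' : MapsTo g'' X'' X) (gl'' : ∀ x ∈ X'', ∀ y ∈ X'', dist (g'' x) (g'' y) ≤ dist x y)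
    (e : ∀ x, g (g' x) = g'' x) (z : GA X) :
    (gM gX' gl').f ((gM gX gl).f z) = (gM gX'' gl'').f z := by
  have e1 : (fun μ : E' →₀ ℝ => μ.mapDomain g) ∘ (fun μ : E'' →₀ ℝ => μ.mapDomain g') =
      fun μ => μ.mapDomain g'' := by
    funext μ
    rw [Function.comp_apply, ← Finsupp.mapDomain_comp, show g ∘ g' = g'' from funext e]
  have h1 : Fam.Map (vr X'') (vr X) ((fun μ : E' →₀ ℝ => μ.mapDomain g) ∘
      (fun μ : E'' →₀ ℝ => μ.mapDomain g')) := (map_vr gX gl).comp (map_vr gX' gl')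
  exact (Fam.pull_comp (map_vr gX gl) (map_vr gX' gl') h1 z).symm.trans
    (Fam.pull_congr h1 (map_vr gX'' gl'') e1 z)

theorem gM_id {X : Set E} {g : E → E} (gX : MapsTo g X X)
    (gl : ∀ x ∈ X, ∀ y ∈ X, dist (g x) (g y) ≤ dist x y) (e : ∀ x, g x = x) (z : GA X) :
    (gM gX gl).f z = z := by
  have e1 : (fun μ : E →₀ ℝ => μ.mapDomain g) = id := by
    funext μ
    rw [show g = id from funext e, Finsupp.mapDomain_id]
    rfl
  exact (Fam.pull_congr (map_vr gX gl) (Fam.Map.id _) e1 z).trans (Fam.pull_id _ z)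

end

end Vale.Agent.P216.V893
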