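import Vale.Agent.P216.V893.R2b
import Vale.Agent.P216.V893.Mu893

/-!
# P216-B, R1: a free homotopy class of positive smallest level contains an iterate of a closed
geodesic of the list, of that length
-/

open Set Filter Topology

namespace Vale.Agent.P216.V893.Dsc

open L250 H494 H288 LS

/-- The loop of the `j`-th closed geodesic, orientation `e = ±1`. -/
noncomputable def gam {M : Type*} [MetricSpace M] (G : GeoList M) (j : G.ι) {e : ℝ}
    (he : e = 1 ∨ e = -1) : LM M :=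
  ofFn (fun t => G.c j (e * G.ℓ j * t)) ((G.continuous_c j).comp (by fun_prop)) (by
    intro t
    rcases he with rfl | rfl
    · have := G.per j (G.ℓ j * t)
      simp only [one_mul]
      rw [mul_add, mul_one]
      exact this
    · have := G.per j (-1 * G.ℓ j * t - G.ℓ j)
      simp only
      rw [mul_add, mul_one]
      rw [show -1 * G.ℓ j * t + -1 * G.ℓ j = -1 * G.ℓ j * t - G.ℓ j by ring, ← this]
      congr 1
      ring)

theorem fn_gam {M : Type*} [MetricSpace M] (G : GeoList M) (j : G.ι) {e : ℝ}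
    (he : e = 1 ∨ e = -1) (t : ℝ) : fn (gam G j he) t = G.c j (e * G.ℓ j * t) := rfl

theorem gam_mem_KK {M : Type*} [MetricSpace M] (G : GeoList M) (j : G.ι) {e : ℝ}
    (he : e = 1 ∨ e = -1) : gam G j he ∈ G.KK e (G.ℓ j) :=
  ⟨j, 0, fun t => by rw [fn_gam, add_zero]⟩

/-- Rotated loops are joined. -/
theorem joined_rot {M : Type*} [MetricSpace M] (g : LM M) (r : ℝ) : Joined g (rot r g) := by
  let F : C(unitInterval × AddCircle (1 : ℝ), M) :=
    ⟨fun p => g (p.2 + ((p.1 * r : ℝ) : AddCircle (1 : ℝ))), by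
      refine g.continuous.comp (continuous_snd.add ?_)
      exact (AddCircle.continuous_mk' 1).comp (by fun_prop)⟩
  refine ⟨⟨F.curry, ?_, ?_⟩⟩
  · refine ext_fn fun t => ?_
    show g ((t : AddCircle (1 : ℝ)) + ((((0 : unitInterval) : ℝ) * r : ℝ) : AddCircle (1 : ℝ))) = _
    simp [fn]
  · refine ext_fn fun t => ?_
    show g ((t : AddCircle (1 : ℝ)) + ((((1 : unitInterval) : ℝ) * r : ℝ) : AddCircle (1 : ℝ))) = _
    simp [fn, rot]

/-- A loop which follows a closed geodesic is an iterate of `gam`, up to a rotation. -/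
theorem joined_gam {M : Type*} [MetricSpace M] {G : GeoList M} {e a : ℝ} (he : e = 1 ∨ e = -1)
    (ha : 0 < a) {x : LM M} (hx : x ∈ G.KK e a) :
    ∃ (j : G.ι) (n : ℕ), 1 ≤ n ∧ a = n * G.ℓ j ∧ Joined x (iter n (gam G j he)) := by
  obtain ⟨j, b, h⟩ := hx
  have hp := KK_period he ha h (r := 1) fun t => fn_periodic x t
  rw [mul_one] at hp
  obtain ⟨m, hm⟩ := G.prime j _ hp
  have h0 := G.ℓ_pos j
  have hm0 : 0 < m := by
    by_contra hcon
    push Not at hcon
    have : (m : ℝ) ≤ 0 := by exact_mod_cast hcon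
    nlinarith
  obtain ⟨n, rfl⟩ := Int.eq_ofNat_of_zero_le hm0.le
  have hn : 1 ≤ n := by exact_mod_cast hm0
  have han : a = n * G.ℓ j := by simpa using hm
  refine ⟨j, n, hn, han, ?_⟩
  have hea : e * a ≠ 0 := by
    rcases he with rfl | rfl
    · simpa using ha.ne'
    · simpa using ha.ne'
  have hrot : x = rot (b / (e * a)) (iter n (gam G j he)) := by
    refine ext_fn fun t => ?_
    rw [fn_rot, fn_iter, fn_gam, h]
    congr 1
    have e1 : e * G.ℓ j * (n * (t + b / (e * a))) = e * a * t + e * a * (b / (e * a)) := by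
      rw [han]; ring
    rw [e1, mul_div_cancel₀ _ hea]
  have h1 := joined_rot (iter n (gam G j he)) (b / (e * a))
  rw [← hrot] at h1
  exact h1.symm

/-- **(C)** -/
theorem class_geo {M : Type} [MetricSpace M] [CompactSpace M] {ρ : ℝ} (hρ : 0 < ρ)
    (h : UniqSeg M ρ) (G : GeoList M) (c : LM M) {a : ℝ} (ha : 0 < a)
    (hx : ∃ x ∈ XE M a, Joined x c)
    (hmin : ∀ x, Joined x c → ∀ T, 0 ≤ T → x ∈ XE M T → a ≤ T) :
    ∃ (e : ℝ) (he : e = 1 ∨ e = -1) (j : G.ι) (n : ℕ), 1 ≤ n ∧ a = n * G.ℓ j ∧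
      Joined c (iter n (gam G j he)) := by
  obtain ⟨x, hx1, hx2⟩ := hx
  rcases r2bGoal M ρ hρ h G c a ha hmin ⟨hx1, hx2⟩ with h1 | h1
  · obtain ⟨j, n, hn, han, hj⟩ := joined_gam (Or.inl rfl) ha h1
    exact ⟨1, Or.inl rfl, j, n, hn, han, hx2.symm.trans hj⟩
  · obtain ⟨j, n, hn, han, hj⟩ := joined_gam (Or.inr rfl) ha h1
    exact ⟨-1, Or.inr rfl, j, n, hn, han, hx2.symm.trans hj⟩

end Vale.Agent.P216.V893.Dsc
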