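import Vale.Agent.P216.V893.R2b
import Vale.Agent.P216.V893.ClsG893
import Vale.Agent.P216.H923B2.Gam

/-!
# P216-B, R1 (C) in the form of `H923B2.CGoal`
-/

set_option linter.all false

open Set Filter Topology

namespace Vale.Agent.P216.V893.Dsc

open L250 H494 H288 LS

theorem cGoal {M : Type} [MetricSpace M] [CompactSpace M] {ρ : ℝ} (hρ : 0 < ρ)
    (h : UniqSeg M ρ) (G : GeoList M) : H923B2.CGoal M G := by
  intro c a ha hx hmin
  obtain ⟨e, he, j, n, hn, han, hj⟩ := class_geo hρ h G c ha hx hmin
  rcases he with rfl | rfl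
  · refine ⟨j, true, n, hn, han, ?_⟩
    have : H923B2.gam G j true = gam G j (Or.inl rfl) := by
      refine ext_fn fun t => ?_
      rw [H923B2.fn_gam, fn_gam]
      simp [H923B2.sg]
    rw [this]
    exact hj.symm
  · refine ⟨j, false, n, hn, han, ?_⟩
    have : H923B2.gam G j false = gam G j (Or.inr rfl) := by
      refine ext_fn fun t => ?_
      rw [H923B2.fn_gam, fn_gam]
      simp [H923B2.sg]
    rw [this]
    exact hj.symm

end Vale.Agent.P216.V893.Dsc
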