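import Vale.Agent.P216.V893.VSInst
import Vale.Agent.P216.V609.LinH

/-!
# P216-V, the free paths and the constant paths; linear growth

`qiso_cst`: the restriction of the free paths to the constant paths is a quasi-isomorphism.
`linBd_vs`: linear growth of the free loops.
-/

set_option linter.unusedSectionVars false

open Set Filter Topology BoundedContinuousFunction Bundle Manifold
open scoped ContDiff

namespace Vale.Agent.P216.V893

open Vale.Agent.P216.PS Vale.Agent.P216.MV337
open V1 V609 H285V H929V V775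
open Vale.Agent.P216.Sl (CocL ExL)

variable {M : Type} [MetricSpace M]

/-- **The free paths and the constant paths.** -/
theorem qiso_cst {t : ℝ} (ht : 0 ≤ t) : Qiso (lsq_cst M t).hom where
  inj := by
    intro n a ha hb
    obtain ⟨f, hf, h1⟩ := (wD (A := PP M t) (dist_ends t)).surj n a ha
    have h2 : (lsq_cst M t).hom.f (WD id (ends t) (PP M t) univ n f) ∈
        (hD (id : M → M) (id : M → M) univ univ).B n := by
      have h3 := (lsq_cst M t).hom.map_B h1
      rw [map_sub] at h3
      have h4 := Submodule.sub_mem _ hb h3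
      rwa [sub_sub_cancel] at h4
    rw [(lsq_cst M t).hom_WD] at h2
    have h5 := exL_PP ht hf (WD_inj (fun _ _ => le_rfl) h2)
    have h6 : a = (a - WD id (ends t) (PP M t) univ n f) + WD id (ends t) (PP M t) univ n f := by
      abel
    rw [h6]
    exact Submodule.add_mem _ h1 (WD_exact _ _ _ _ h5)
  surj := by
    intro n a' ha'
    obtain ⟨f, hf, h1⟩ := (wD (A := (univ : Set M)) (r := (id : M → M))
      (fun _ _ => le_rfl)).surj n a' ha'
    obtain ⟨h2, h3⟩ := cocL_PP t hf
    refine ⟨WD id (ends t) (PP M t) univ n (fun l => f (l.map fun w : ℝ →ᵇ M => w 0)),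
      (WD_Z_iff (dist_ends t)).2 h2, ?_⟩
    rw [(lsq_cst M t).hom_WD]
    simp only [h3]
    exact h1

/-- the same for the instance -/
theorem qiso_vs (b : M) {t : ℝ} (ht : 0 < t) : Qiso ((vs M b).cst t).g := qiso_cst ht.le

/-- **Linear growth of the free loops.** -/
theorem linBd_vs {E : Type} [NormedAddCommGroup E] [NormedSpace ℝ E] [FiniteDimensional ℝ E]
    [CompactSpace M] [ChartedSpace E M] [IsManifold 𝓘(ℝ, E) ∞ M]
    [RiemannianBundle (fun x : M => TangentSpace 𝓘(ℝ, E) x)]
    [IsContMDiffRiemannianBundle 𝓘(ℝ, E) ∞ E (fun x : M => TangentSpace 𝓘(ℝ, E) x)]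
    [IsRiemannianManifold 𝓘(ℝ, E) M] [PreconnectedSpace M]
    (hfin : ¬ (primeClosedGeodesicImages M).Infinite) (b : M) : (vs M b).FL.toNSys.LinBd :=
  linBd_hSys (E := E) hfin dist_zero fun _ _ h => FL_mono' h

end Vale.Agent.P216.V893
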