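import Vale.Agent.P216.V609.Cdga

/-!
# P216-V, V4-CYL: abstract cylinders

`Cyl DA DC`: `DC` are the forms on `X × [0, 1]`, `DA` the forms on `X`; `p` is the pull back along
the projection, `i0`, `i1` the restrictions to the ends, `K` the integral over `[0, s]`.
-/

namespace Vale.Agent.P216.V893

open Vale.Agent.P216.V609

variable {k : Type*} [Field k]

/-- A cylinder. -/
structure Cyl {A C : Type*} [Ring A] [Algebra k A] [Ring C] [Algebra k C] (DA : Cdga k A)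
    (DC : Cdga k C) where
  p : Cdga.Hom DA DC
  i0 : Cdga.Hom DC DA
  i1 : Cdga.Hom DC DA
  i0_p : ∀ a, i0.f (p.f a) = a
  i1_p : ∀ a, i1.f (p.f a) = a
  K : C →ₗ[k] C
  K_deg : ∀ {n : ℕ} {c : C}, c ∈ DC.deg (n + 1) → K c ∈ DC.deg n
  K_zero : ∀ {c : C}, c ∈ DC.deg 0 → K c = 0
  dK : ∀ c, DC.d (K c) + K (DC.d c) = c - p.f (i0.f c)
  i0_K : ∀ c, i0.f (K c) = 0
  K_mul : ∀ c a, K (c * p.f a) = K c * p.f a
  K_sg : ∀ c, K (DC.sg c) = -DC.sg (K c)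

namespace Cyl

variable {A C : Type*} [Ring A] [Algebra k A] [Ring C] [Algebra k C] {DA : Cdga k A}
  {DC : Cdga k C} (Y : Cyl DA DC)

theorem K_p (a : A) : Y.K (Y.p.f a) = 0 := by
  have h := Y.K_mul 1 a
  rw [one_mul, Y.K_zero DC.one_mem, zero_mul] at h
  exact h

/-- The integral over `[0, 1]`. -/
def I : C →ₗ[k] A := Y.i1.f.toLinearMap ∘ₗ Y.K

theorem I_apply (c : C) : Y.I c = Y.i1.f (Y.K c) := rfl

theorem I_deg {n : ℕ} {c : C} (h : c ∈ DC.deg (n + 1)) : Y.I c ∈ DA.deg n := Y.i1.deg (Y.K_deg h)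

theorem I_mul (c : C) (a : A) : Y.I (c * Y.p.f a) = Y.I c * a := by
  rw [I_apply, I_apply, Y.K_mul, map_mul, Y.i1_p]

theorem I_sg (c : C) : Y.I (DC.sg c) = -DA.sg (Y.I c) := by
  rw [I_apply, I_apply, Y.K_sg, map_neg, Y.i1.sg]

theorem I_p (a : A) : Y.I (Y.p.f a) = 0 := by
  rw [I_apply, Y.K_p, map_zero]

/-- **Stokes.** -/
theorem d_I (c : C) : DA.d (Y.I c) + Y.I (DC.d c) = Y.i1.f c - Y.i0.f c := by
  rw [I_apply, I_apply, ← Y.i1.d, ← map_add, Y.dK, map_sub, Y.i1_p]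

theorem d_K_of_closed {c : C} (h : DC.d c = 0) : DC.d (Y.K c) = c - Y.p.f (Y.i0.f c) := by
  have := Y.dK c
  rwa [h, map_zero, add_zero] at this

theorem d_I_of_closed {c : C} (h : DC.d c = 0) : DA.d (Y.I c) = Y.i1.f c - Y.i0.f c := by
  have := Y.d_I c
  rwa [h, map_zero, add_zero] at this

/-! ### The extension by an odd generator -/

section ex

variable {l : ℕ} (hl : Odd l) {x : A} (hx : x ∈ DA.deg (l + 1)) (hdx : DA.d x = 0)

theorem d_p (hdx : DA.d x = 0) : DC.d (Y.p.f x) = 0 := by rw [← Y.p.d, hdx, map_zero]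

/-- **The cylinder of `A ⟨e⟩`.** -/
def ex : Cyl (DA.ex hl hx hdx) (DC.ex hl (Y.p.deg hx) (Y.d_p hdx)) where
  p := Y.p.exMap hl hx hdx _ _ rfl
  i0 := Y.i0.exMap hl _ _ hx hdx (Y.i0_p x)
  i1 := Y.i1.exMap hl _ _ hx hdx (Y.i1_p x)
  i0_p a := by
    ext
    · exact Y.i0_p _
    · exact Y.i0_p _
  i1_p a := by
    ext
    · exact Y.i1_p _
    · exact Y.i1_p _
  K := { toFun := fun c => ⟨Y.K c.1, Y.K c.2⟩
         map_add' := fun a b => by ext <;> simp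
         map_smul' := fun r a => by ext <;> simp }
  K_deg := by
    rintro n c ⟨h1, h2⟩
    refine ⟨Y.K_deg h1, ?_⟩
    show Y.K c.2 ∈ _
    rcases DC.mem_degS h2 with h | ⟨j, hj, h⟩
    · rw [h, map_zero]; exact Submodule.zero_mem _
    · rcases j with _ | j
      · rw [Y.K_zero h]; exact Submodule.zero_mem _
      · exact DC.degS_of (by omega) (Y.K_deg h)
  K_zero := by
    rintro c ⟨h1, h2⟩
    ext
    · exact Y.K_zero h1
    · show Y.K c.2 = 0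
      rcases DC.mem_degS h2 with h | ⟨j, hj, h⟩
      · rw [h, map_zero]
      · obtain ⟨m, rfl⟩ := hl
        omega
  dK c := by
    ext
    · show DC.d (Y.K c.1) + DC.sg (Y.K c.2) * Y.p.f x + Y.K (DC.d c.1 + DC.sg c.2 * Y.p.f x) =
        c.1 - Y.p.f (Y.i0.f c.1)
      rw [map_add, Y.K_mul, Y.K_sg, neg_mul, ← Y.dK]
      abel
    · exact Y.dK c.2
  i0_K c := by
    ext
    · exact Y.i0_K c.1
    · exact Y.i0_K c.2
  K_mul c a := by
    ext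
    · exact Y.K_mul _ _
    · show Y.K (c.1 * Y.p.f a.2 + c.2 * DC.sg (Y.p.f a.1)) =
        Y.K c.1 * Y.p.f a.2 + Y.K c.2 * DC.sg (Y.p.f a.1)
      rw [← Y.p.sg, map_add, Y.K_mul, Y.K_mul]
  K_sg c := by
    ext
    · exact Y.K_sg c.1
    · show Y.K (-DC.sg c.2) = -(-DC.sg (Y.K c.2))
      rw [map_neg, Y.K_sg]

@[simp] theorem ex_K_fst (c) : ((Y.ex hl hx hdx).K c).1 = Y.K c.1 := rfl
@[simp] theorem ex_K_snd (c) : ((Y.ex hl hx hdx).K c).2 = Y.K c.2 := rfl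

end ex

end Cyl

/-- Morphisms of cylinders. -/
structure Cyl.Hom {A C A' C' : Type*} [Ring A] [Algebra k A] [Ring C] [Algebra k C] [Ring A']
    [Algebra k A'] [Ring C'] [Algebra k C'] {DA : Cdga k A} {DC : Cdga k C} {DA' : Cdga k A'}
    {DC' : Cdga k C'} (Y : Cyl DA DC) (Y' : Cyl DA' DC') where
  f : Cdga.Hom DA DA'
  g : Cdga.Hom DC DC'
  g_p : ∀ a, g.f (Y.p.f a) = Y'.p.f (f.f a)
  i0_g : ∀ c, Y'.i0.f (g.f c) = f.f (Y.i0.f c)
  i1_g : ∀ c, Y'.i1.f (g.f c) = f.f (Y.i1.f c)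
  g_K : ∀ c, g.f (Y.K c) = Y'.K (g.f c)

namespace Cyl.Hom

variable {A C A' C' : Type*} [Ring A] [Algebra k A] [Ring C] [Algebra k C] [Ring A']
    [Algebra k A'] [Ring C'] [Algebra k C'] {DA : Cdga k A} {DC : Cdga k C} {DA' : Cdga k A'}
    {DC' : Cdga k C'} {Y : Cyl DA DC} {Y' : Cyl DA' DC'} (φ : Cyl.Hom Y Y')

theorem f_I (c : C) : φ.f.f (Y.I c) = Y'.I (φ.g.f c) := by
  rw [Cyl.I_apply, Cyl.I_apply, ← φ.i1_g, φ.g_K]

variable {l : ℕ} (hl : Odd l) {x : A} (hx : x ∈ DA.deg (l + 1)) (hdx : DA.d x = 0)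
  {x' : A'} (hx' : x' ∈ DA'.deg (l + 1)) (hdx' : DA'.d x' = 0) (h : φ.f.f x = x')

/-- Functoriality of the extension. -/
def ex : Cyl.Hom (Y.ex hl hx hdx) (Y'.ex hl hx' hdx') where
  f := φ.f.exMap hl hx hdx hx' hdx' h
  g := φ.g.exMap hl _ _ _ _ (by rw [φ.g_p, h])
  g_p a := by
    ext
    · exact φ.g_p _
    · exact φ.g_p _
  i0_g a := by
    ext
    · exact φ.i0_g _
    · exact φ.i0_g _
  i1_g a := by
    ext
    · exact φ.i1_g _
    · exact φ.i1_g _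
  g_K a := by
    ext
    · exact φ.g_K _
    · exact φ.g_K _

@[simp] theorem ex_f_fst (a) : (((φ.ex hl hx hdx hx' hdx' h).f).f a).1 = φ.f.f a.1 := rfl
@[simp] theorem ex_f_snd (a) : (((φ.ex hl hx hdx hx' hdx' h).f).f a).2 = φ.f.f a.2 := rfl
@[simp] theorem ex_g_fst (a) : (((φ.ex hl hx hdx hx' hdx' h).g).f a).1 = φ.g.f a.1 := rfl
@[simp] theorem ex_g_snd (a) : (((φ.ex hl hx hdx hx' hdx' h).g).f a).2 = φ.g.f a.2 := rfl

end Cyl.Hom

end Vale.Agent.P216.V893
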