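import Vale.Agent.P216.V893.Cyl
import Vale.Agent.P231.WA.Deg

/-!
# P216-V, V3-CI: the cylinder of forms

`formC D`: the graded commutative dga of the differential forms on a diffeological space.
`fcyl D m`: the cylinder `X × ℝ` with the ends `0` and `m`; `K` is the integral over `[0, s]`.
-/

set_option linter.unusedSectionVars false

open Set Filter Topology
open scoped ContDiff

namespace Vale.Agent.P216.V893

open Vale.Agent.P231.Fm Vale.Agent.P216.V609

noncomputable section

universe u v

/-- **The graded commutative dga of forms.** -/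
def formC {X : Type u} (D : Dif X) : Cdga ℝ (Form D) where
  deg q := { carrier := {a | Form.IsDeg q a}
             add_mem' := fun h h' => h.add h'
             zero_mem' := Form.IsDeg.zero q
             smul_mem' := fun c _ h => h.smul c }
  sg := AlgHom.ofLinearMap
    { toFun := Form.sg, map_add' := Form.sg_add, map_smul' := Form.sg_smul } Form.sg_one
    Form.sg_mul
  d := Form.dL
  one_mem := Form.IsDeg.one
  mul_mem h h' := h.mul h'
  sg_deg h := h.sg
  sg_sg := Form.sg_sg
  sg_d a := by
    show (Form.d a).sg = -(Form.sg a).d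
    rw [Form.d_sg, neg_neg]
  comm := by
    intro p a ha b
    show a * b = (Form.sg^[p] b) * a
    have h2 : ∀ m : ℕ, ∀ b : Form D, Form.sg^[2 * m] b = b := by
      intro m
      induction m with
      | zero => intro b; rfl
      | succ m ih =>
        intro b
        rw [show 2 * (m + 1) = 2 * m + 2 by ring, Function.iterate_add_apply, ih]
        exact Form.sg_sg b
    rcases Nat.even_or_odd' p with ⟨m, rfl | rfl⟩
    · rw [h2]
      exact Form.mul_comm_of_even (Form.IsDeg.sg_of_even ha ⟨m, by ring⟩) b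
    · rw [Function.iterate_succ_apply, h2]
      exact Form.mul_of_odd (Form.IsDeg.sg_of_odd ha ⟨m, rfl⟩) b
  d_mem h := h.d
  d_d := Form.d_d
  leib := Form.d_mul

section

variable {X : Type u} {Y : Type v} {D : Dif X} {D' : Dif Y}

theorem mem_formC {q : ℕ} {a : Form D} : a ∈ (formC D).deg q ↔ Form.IsDeg q a := Iff.rfl

@[simp] theorem formC_d (a : Form D) : (formC D).d a = a.d := rfl

@[simp] theorem formC_sg (a : Form D) : (formC D).sg a = a.sg := rfl

/-- pull back -/
def pullC (f : X → Y) (hf : D.Map D' f) : Cdga.Hom (formC D') (formC D) where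
  f := Form.pullA f hf
  deg h := Form.IsDeg.pull h f hf
  sg a := Form.pull_sg f hf a
  d a := Form.pull_d f hf a

@[simp] theorem pullC_apply (f : X → Y) (hf : D.Map D' f) (a : Form D') :
    (pullC f hf).f a = Form.pull f hf a := rfl

end

section

variable {X Y Z : Type*} {D : Dif X} {D' : Dif Y} {D'' : Dif Z}

theorem pull_pull {f : X → Y} {g : Y → Z} (hf : D.Map D' f) (hg : D'.Map D'' g)
    {h : X → Z} (hh : D.Map D'' h) (he : ∀ x, g (f x) = h x) (a : Form D'') :
    Form.pull f hf (Form.pull g hg a) = Form.pull h hh a := by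
  have h1 : g ∘ f = h := funext he
  subst h1
  exact (Form.pull_comp hf hg hh a).symm

theorem map_prodId {f : X → Y} (hf : D.Map D' f) :
    (D.prod (Dif.lin ℝ)).Map (D'.prod (Dif.lin ℝ)) (fun p : X × ℝ => (f p.1, p.2)) :=
  fun h => ⟨hf h.1, h.2⟩

/-- naturality of the homotopy operator -/
theorem pull_K {f : X → Y} (hf : D.Map D' f) (w : Form (D'.prod (Dif.lin ℝ))) :
    Form.pull f hf (Form.K w) =
      Form.K (Form.pull (fun p : X × ℝ => (f p.1, p.2)) (map_prodId hf) w) :=
  Form.ext_val fun E _ _ _ u x h => by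
    rw [Form.pull_val _ _ h, Form.K_val _ (hf h), Form.K_val _ h, kop, kop]
    refine intervalIntegral.integral_congr fun t _ => ?_
    change at1 _ = at1 _
    rw [Form.pull_val _ _ (Form.cyl_at h t)]
    rfl

theorem K_sg (w : Form (D.prod (Dif.lin ℝ))) : Form.K w.sg = -(Form.K w).sg :=
  Form.ext_val fun E _ _ _ u x h => by
    rw [Form.neg_val, Form.sg_val, Form.K_val _ h, Form.K_val _ h, kop, kop]
    obtain ⟨U, hU, hx, _, hw⟩ := Form.cyl_smooth w h
    have hc : Continuous fun t : ℝ => w.val (Form.cyl u) (x, t) :=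
      hw.continuousOn.comp_continuous (Continuous.prodMk_right _) fun t => ⟨hx, mem_univ _⟩
    have h1 := ContinuousLinearMap.intervalIntegral_comp_comm (invL (E := E)) (a := 0) (b := 1)
      (μ := MeasureTheory.volume) (((at1 (E := E)).continuous.comp hc).intervalIntegrable 0 1)
    rw [eq_neg_iff_add_eq_zero]
    refine (congrArg₂ (· + ·) rfl h1.symm).trans ?_
    rw [← intervalIntegral.integral_add]
    · refine (intervalIntegral.integral_congr (g := fun _ => (0 : Lam E))
        fun t _ => ?_).trans intervalIntegral.integral_zero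
      change at1 (inv _) + inv (at1 _) = 0
      rw [at1_apply, at1_apply, at0_apply, at0_apply, ← pull_inv, inv_iprod, map_neg]
      exact add_neg_cancel _
    · exact ((at1 (E := E)).continuous.comp
        ((invL (E := E × ℝ)).continuous.comp hc)).intervalIntegrable 0 1
    · exact ((invL (E := E)).continuous.comp
        ((at1 (E := E)).continuous.comp hc)).intervalIntegrable 0 1

/-- the map `((x, s), r) ↦ (x, r s)` -/
def scl (p : (X × ℝ) × ℝ) : X × ℝ := (p.1.1, p.2 * p.1.2)

theorem map_scl : ((D.prod (Dif.lin ℝ)).prod (Dif.lin ℝ)).Map (D.prod (Dif.lin ℝ)) scl :=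
  fun {E} _ _ _ {u x} h => ⟨h.1.1, by
    have h1 : Sm (fun y => (u y).1.2) x := h.1.2
    have h2 : Sm (fun y => (u y).2) x := h.2
    exact Sm.comp (f := fun q : ℝ × ℝ => q.1 * q.2) (g := fun y => ((u y).2, (u y).1.2))
      (Sm.of_contDiff (contDiff_fst.mul contDiff_snd) _) (h2.prodMk h1)⟩

/-- The integral over `[0, s]`. -/
def KK (w : Form (D.prod (Dif.lin ℝ))) : Form (D.prod (Dif.lin ℝ)) :=
  Form.K (Form.pull scl map_scl w)

theorem slice1_scl (w : Form (D.prod (Dif.lin ℝ))) :
    Form.pull (fun x => (x, (1 : ℝ))) (Form.map_slice 1) (Form.pull scl map_scl w) = w := by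
  rw [pull_pull (Form.map_slice 1) map_scl (h := id) Dif.map_id (fun x => by simp [scl]),
    Form.pull_id]

theorem slice0_scl (w : Form (D.prod (Dif.lin ℝ))) :
    Form.pull (fun x => (x, (0 : ℝ))) (Form.map_slice 0) (Form.pull scl map_scl w) =
      Form.pull Prod.fst Dif.map_fst
        (Form.pull (fun x => (x, (0 : ℝ))) (Form.map_slice 0) w) := by
  rw [pull_pull (Form.map_slice 0) map_scl
      (h := fun p : X × ℝ => ((fun x => (x, (0 : ℝ))) (Prod.fst p) : X × ℝ))
      (fun {E} _ _ _ {u x} h => ⟨h.1, Sm.of_contDiff contDiff_const _⟩)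
      (fun x => by simp [scl]),
    pull_pull Dif.map_fst (Form.map_slice 0)
      (h := fun p : X × ℝ => ((fun x => (x, (0 : ℝ))) (Prod.fst p) : X × ℝ))
      (fun {E} _ _ _ {u x} h => ⟨h.1, Sm.of_contDiff contDiff_const _⟩)
      (fun x => rfl)]

theorem d_KK (w : Form (D.prod (Dif.lin ℝ))) : (KK w).d + KK w.d =
    w - Form.pull Prod.fst Dif.map_fst
        (Form.pull (fun x => (x, (0 : ℝ))) (Form.map_slice 0) w) := by
  rw [← slice0_scl, KK, KK, Form.pull_d, add_comm, ← Form.homotopy, slice1_scl]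

theorem K_fst (a : Form D) :
    Form.K (Form.pull (Prod.fst : X × ℝ → X) (Dif.map_fst (D := D) (D' := Dif.lin ℝ)) a) = 0 := by
  have h := Form.K_mul_fst a (1 : Form (D.prod (Dif.lin ℝ)))
  rwa [one_mul, Form.IsDeg.K_zero Form.IsDeg.one, zero_mul] at h

theorem slice0_KK (w : Form (D.prod (Dif.lin ℝ))) :
    Form.pull (fun x => (x, (0 : ℝ))) (Form.map_slice 0) (KK w) = 0 := by
  have hm : (D.prod (Dif.lin ℝ)).Map (D.prod (Dif.lin ℝ))
      (fun p : X × ℝ => ((Prod.fst p, 0) : X × ℝ)) :=
    fun {E} _ _ _ {u x} h => ⟨h.1, Sm.of_contDiff contDiff_const _⟩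
  rw [KK, pull_K, pull_pull (map_prodId (Form.map_slice 0)) map_scl hm (fun x => by simp [scl]),
    ← pull_pull (Dif.map_fst (D := D) (D' := Dif.lin ℝ)) (Form.map_slice (D := D) 0) hm
      (fun x => rfl)]
  exact K_fst _

/-- the integral as a linear map -/
def KL : Form (D.prod (Dif.lin ℝ)) →ₗ[ℝ] Form (D.prod (Dif.lin ℝ)) where
  toFun := KK
  map_add' a b := by
    show Form.K (Form.pullA scl map_scl (a + b)) = _
    rw [map_add, Form.K_add]
    rfl
  map_smul' c a := by
    show Form.K (Form.pullA scl map_scl (c • a)) = _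
    rw [map_smul, Form.K_smul]
    rfl

@[simp] theorem KL_apply (w : Form (D.prod (Dif.lin ℝ))) : KL w = KK w := rfl

/-- **The cylinder of forms**, with the ends `0` and `m`. -/
def fcyl (D : Dif X) (m : ℝ) : Cyl (formC D) (formC (D.prod (Dif.lin ℝ))) where
  p := pullC Prod.fst Dif.map_fst
  i0 := pullC (fun x => (x, (0 : ℝ))) (Form.map_slice 0)
  i1 := pullC (fun x => (x, m)) (Form.map_slice m)
  i0_p a := by
    rw [pullC_apply, pullC_apply, pull_pull (Form.map_slice 0) Dif.map_fst (h := id) Dif.map_id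
      (fun x => rfl), Form.pull_id]
  i1_p a := by
    rw [pullC_apply, pullC_apply, pull_pull (Form.map_slice m) Dif.map_fst (h := id) Dif.map_id
      (fun x => rfl), Form.pull_id]
  K := KL
  K_deg h := Form.IsDeg.K (Form.IsDeg.pull h scl map_scl)
  K_zero h := Form.IsDeg.K_zero (Form.IsDeg.pull h scl map_scl)
  dK w := d_KK w
  i0_K w := slice0_KK w
  K_mul w a := by
    show Form.K (Form.pullA scl map_scl (w * Form.pull Prod.fst Dif.map_fst a)) =
      Form.K (Form.pull scl map_scl w) * Form.pull Prod.fst Dif.map_fst a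
    have hm : ((D.prod (Dif.lin ℝ)).prod (Dif.lin ℝ)).Map D (fun p => p.1.1) := fun h => h.1.1
    rw [map_mul, Form.pullA_apply, Form.pullA_apply,
      pull_pull map_scl Dif.map_fst hm (fun x => rfl),
      ← pull_pull Dif.map_fst (Dif.map_fst (D := D) (D' := Dif.lin ℝ)) hm (fun x => rfl),
      Form.K_mul_fst]
  K_sg w := by
    show Form.K (Form.pull scl map_scl w.sg) = -(Form.K (Form.pull scl map_scl w)).sg
    rw [Form.pull_sg, K_sg]

@[simp] theorem fcyl_p (m : ℝ) (a : Form D) :
    (fcyl D m).p.f a = Form.pull Prod.fst Dif.map_fst a := rfl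
@[simp] theorem fcyl_i0 (m : ℝ) (w : Form (D.prod (Dif.lin ℝ))) :
    (fcyl D m).i0.f w = Form.pull (fun x => (x, (0 : ℝ))) (Form.map_slice 0) w := rfl
@[simp] theorem fcyl_i1 (m : ℝ) (w : Form (D.prod (Dif.lin ℝ))) :
    (fcyl D m).i1.f w = Form.pull (fun x => (x, m)) (Form.map_slice m) w := rfl
@[simp] theorem fcyl_K (m : ℝ) (w : Form (D.prod (Dif.lin ℝ))) :
    (fcyl D m).K w = Form.K (Form.pull scl map_scl w) := rfl

/-- **Naturality** of the cylinder. -/
def fcylHom (m : ℝ) (f : X → Y) (hf : D.Map D' f) : Cyl.Hom (fcyl D' m) (fcyl D m) where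
  f := pullC f hf
  g := pullC (fun p : X × ℝ => (f p.1, p.2)) (map_prodId hf)
  g_p a := by
    have hm : (D.prod (Dif.lin ℝ)).Map D' (fun p : X × ℝ => f p.1) := fun h => hf h.1
    simp only [fcyl_p, pullC_apply]
    rw [pull_pull (map_prodId hf) Dif.map_fst hm (fun x => rfl),
      pull_pull Dif.map_fst hf hm (fun x => rfl)]
  i0_g c := by
    have hm : D.Map (D'.prod (Dif.lin ℝ)) (fun x : X => (f x, (0 : ℝ))) :=
      fun h => Form.map_slice 0 (hf h)
    simp only [fcyl_i0, pullC_apply]
    rw [pull_pull (Form.map_slice 0) (map_prodId hf) hm (fun x => rfl),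
      pull_pull hf (Form.map_slice 0) hm (fun x => rfl)]
  i1_g c := by
    have hm : D.Map (D'.prod (Dif.lin ℝ)) (fun x : X => (f x, m)) :=
      fun h => Form.map_slice m (hf h)
    simp only [fcyl_i1, pullC_apply]
    rw [pull_pull (Form.map_slice m) (map_prodId hf) hm (fun x => rfl),
      pull_pull hf (Form.map_slice m) hm (fun x => rfl)]
  g_K w := by
    have hm : ((D.prod (Dif.lin ℝ)).prod (Dif.lin ℝ)).Map (D'.prod (Dif.lin ℝ))
      (fun p : (X × ℝ) × ℝ => (f p.1.1, p.2 * p.1.2)) := fun h => map_prodId hf (map_scl h)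
    simp only [fcyl_K, pullC_apply]
    rw [pull_K, pull_pull (map_prodId (map_prodId hf)) map_scl hm (fun x => rfl),
      pull_pull map_scl (map_prodId hf) hm (fun x => rfl)]

end

end

end Vale.Agent.P216.V893
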