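import Vale.Agent.P216.V893.VSInst
import Vale.Agent.P216.V670.Top

/-!
# P216-V, (F): the germs of the hybrid dgas as limits over the scales

`gmH i`, `gmB i`, `gmN i`: the maps from the scale `i` to the germs. `col_gmH`: the germs are the
colimit. `hom_gmH`: the germ of a pull back.
-/

set_option linter.unusedSectionVars false

open Set Filter Topology BoundedContinuousFunction

namespace Vale.Agent.P216.V893

open V1 V609 H285V H929V V775 V670
open Vale.Agent.P231.Fm

noncomputable section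

variable {E M N : Type} [PseudoMetricSpace E] [PseudoMetricSpace M] [PseudoMetricSpace N]
variable {π : E → N} {ρ : M → N} {A A' A'' : Set M} {X X' X'' : Set E} {ε ε' ε'' : ℝ}

variable (π ρ A X) in
/-- the germ of an element at the scale `i` -/
def gmH (i : Sc) : NDga.Hom (hN π ρ A X i.v) (hD π ρ A X) := (hsys π ρ A X).ofHom i

theorem gmH_apply (i : Sc) (w : HT π ρ A X i.v) : (gmH π ρ A X i).f w = germD π ρ A X i.pos w := rfl

variable (X) in
/-- the germ of a form at the scale `i` -/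
def gmB (i : Sc) : Cdga.Hom (fC (DM X i.v)) (vr X).cdga := (vr X).sys.ofHom i

theorem gmB_apply (i : Sc) (w : Form (DM X i.v)) : (gmB X i).f w = (vr X).germ i.pos w := rfl

variable (π ρ A X) in
/-- the same over the germs of forms -/
def gmN (i : Sc) : NMp (X := ⟨Form (DM X i.v), fC (DM X i.v)⟩) (Y := gCD X) (gmB X i)
    ⟨HT π ρ A X i.v, hN π ρ A X i.v, iC π ρ A X i.v⟩ (hND π ρ A X) :=
  ⟨gmH π ρ A X i, fun a => (evD_germ i.pos a).symm⟩

/-- restriction to smaller sets and scales -/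
abbrev rsH (hA : A ⊆ A') (hX : X ⊆ X') (hε : ε ≤ ε') : NDga.Hom (hN π ρ A' X' ε') (hN π ρ A X ε) :=
  pullHom Sq.id (map_mono hA hX hε)

theorem rsH_rsH (hA : A ⊆ A') (hX : X ⊆ X') (hε : ε ≤ ε') (hA' : A' ⊆ A'') (hX' : X' ⊆ X'')
    (hε' : ε' ≤ ε'') (w : HT π ρ A'' X'' ε'') :
    (rsH hA hX hε).f ((rsH hA' hX' hε').f w) =
      (rsH (hA.trans hA') (hX.trans hX') (hε.trans hε')).f w :=
  (pullHom_comp Sq.id _ Sq.id _ Sq.id _ w).symm

/-- the germ of a restriction -/
theorem germD_rsH (hA : A ⊆ A') (hX : X ⊆ X') (h : 0 < ε) (h' : 0 < ε') (hε : ε ≤ ε')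
    (w : HT π ρ A' X' ε') : germD π ρ A X h ((rsH hA hX hε).f w) =
      (LSq.incl (π := π) (ρ := ρ) hA hX).hom.f (germD π ρ A' X' h' w) := by
  have e : (pm id id : MP E M → MP E M) = id := by
    funext p
    refine Prod.ext ?_ ?_
    · exact Finsupp.mapDomain_id
    · exact List.map_id _
  have key : ∀ (Φ : MP E M → MP E M) (hs : Sq Φ) (hΦ : (DT π ρ A X ε').Map (DT π ρ A' X' ε') Φ),
      Φ = id → (pullHom hs hΦ).f w = (rsH hA hX le_rfl).f w := by
    rintro Φ hs hΦ rfl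
    rfl
  rw [LSq.hom_germ, LSq.homT, key _ _ ((LSq.incl (π := π) (ρ := ρ) hA hX).sqD ε').map e,
    ← germD_res h h' hε]
  exact congrArg (germD π ρ A X h) (rsH_rsH Subset.rfl Subset.rfl hε hA hX le_rfl w).symm

/-- **The germs are the colimit of the scales.** -/
theorem col_gmH (r : ∀ i j : Sc, i ≤ j → NDga.Hom (hN π ρ A X i.v) (hN π ρ A X j.v))
    (hr : ∀ i j h w, (r i j h).f w = (resD (Sc.le_iff.1 h)).f w) :
    IsCol (fun i : Sc => hN π ρ A X i.v) r (hD π ρ A X) (gmH π ρ A X) where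
  res i j h w := by
    rw [hr]
    exact germD_res j.pos i.pos (Sc.le_iff.1 h) w
  surj := by
    intro m z hz i₀
    obtain ⟨ε, h, h1, w, hw, rfl⟩ := exists_degD hz i₀.pos
    exact ⟨Sc.mk ε h, h1, w, hw, rfl⟩
  eq_zero := by
    intro i w h
    obtain ⟨δ, h1, h2, h3⟩ := germD_eq_zero.1 h
    exact ⟨Sc.mk δ h2, h1, (hr i (Sc.mk δ h2) h1 w).trans h3⟩

end

end Vale.Agent.P216.V893
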