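import Vale.Agent.P216.H971B.Props

/-!
# P216-B: composition of the rows (metric form)
-/

open Set Filter Topology

namespace Vale.Agent.P216.V893

open L250 H494 H971B
open Vale.Agent.P216.Sl Vale.Agent.P216.N929

/-- **Theorem B**, metric form: composition of the rows. -/
theorem glueB (h1 : R1Goal) (h2 : R2Goal) (h2b : R2bGoal) (h3 : R3Goal) (h4 : R4Goal)
    (h5 : R5Goal) (h6 : R6Goal) (h7 : R7Goal) (h8 : R8Goal)
    (M : Type) [MetricSpace M] [CompactSpace M] [PathConnectedSpace M] (ρ : ℝ) (hρ : 0 < ρ)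
    (hs : LS.UniqSeg M ρ) (x₀ : M) (hπ : Infinite (ConjClasses (FundamentalGroup M x₀)))
    (k : Type) [Field k] (q : ℕ) (hq : 1 ≤ q) (U : List M → k) (hU : Nrm U)
    (hc : CocL (univ : Set M) (q + 1) U)
    (s : C(Metric.sphere (0 : EuclideanSpace ℝ (Fin (q + 2))) 1, M))
    (hne : ¬ ExL univ (q + 1) (fun l => U (l.map s))) : IsEmpty (GeoList M) := by
  refine ⟨fun G => ?_⟩
  obtain ⟨c, L, hL, hcK, hmin, hgap⟩ := h1 M ρ hρ hs G (h7 M x₀ hπ)
  obtain ⟨T, N0, hT⟩ := h6 M ρ hρ hs k q U hq hU hc s hne (fn c 0)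
  obtain ⟨m0, hm0⟩ := hgap ((T : ℝ) + 1)
  set m : ℕ := max m0 1 with hm
  have hm1 : 1 ≤ m := le_max_right _ _
  have hmpos : (0 : ℝ) < m := by exact_mod_cast hm1
  have ha : 0 < (m : ℝ) * L := mul_pos hmpos hL
  set S : ℕ := ⌊(m : ℝ) * L⌋₊ + 1 with hS
  have hS1 : (m : ℝ) * L < S := by
    rw [hS]
    push_cast
    exact Nat.lt_floor_add_one _
  have hS2 : (S : ℝ) ≤ m * L + 1 := by
    rw [hS]
    push_cast
    have := Nat.floor_le ha.le
    linarith
  have haT : (m : ℝ) * L < ((T + S : ℕ) : ℝ) := by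
    push_cast
    have : (0 : ℝ) ≤ T := by positivity
    linarith
  set cm := iter m c with hcm
  have hTS : (0 : ℝ) ≤ ((T + S : ℕ) : ℝ) := by positivity
  obtain ⟨N1, hN1⟩ := h8 M k q U hc ((T + S : ℕ) : ℝ) hTS
  have hZ : Ecl M ((m : ℝ) * L) cm ⊆ Geo1 G ((m : ℝ) * L) :=
    h2b M ρ hρ hs G cm _ ha fun x hx T' hT' hxT => hmin m hm1 x hx T' hT' hxT
  obtain ⟨N2, hN2⟩ := h4 M G k q U ((m : ℝ) * L) _ hq hU hc ha hZ
  set N' : ℕ := max N0 (max N1 N2) with hN'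
  have hTSpos : 1 ≤ T + S := by omega
  set N : ℕ := (T + S) * (N' + 1) - 1 with hN
  have hNN : N + 1 = (T + S) * (N' + 1) := by
    have : 1 ≤ (T + S) * (N' + 1) := Nat.mul_pos (by omega) (by omega)
    omega
  have hNge : N' ≤ N := by
    have : N' + 1 ≤ (T + S) * (N' + 1) := Nat.le_mul_of_pos_left _ (by omega)
    omega
  have hcoc := hN1 N (((le_max_left _ _).trans (le_max_right _ _)).trans hNge)
  have hcoc' : CocL (Ecl M ((T + S : ℕ) : ℝ) cm) q (etaL (k := k) N U) :=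
    hcoc.mono fun x hx => hx.1
  have hex0 := hN2 N (((le_max_right _ _).trans (le_max_right _ _)).trans hNge)
  obtain ⟨a', ha1, ha2, hex1⟩ := h3 M ρ hρ hs k cm ((m : ℝ) * L) ((T + S : ℕ) : ℝ) q _ ha.le haT
    hcoc' hex0
  have hex2 := h2 M ρ hρ hs G cm ((m : ℝ) * L) ((T + S : ℕ) : ℝ) ha haT (fun b hb1 hb2 x hx =>
    hm0 m (le_max_left _ _) b hb1 (by push_cast at hb2; linarith) x hx) k q _ a' ha1 ha2
    hcoc' hex1
  refine hT N' (le_max_left _ _) (h5 M k q U hq hU c L m T S N N' hL hm1 ?_ hS1.le hNN hex2)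
  intro u v
  have := KK_dist_le (Or.inl rfl) hL.le hcK u v
  exact this

end Vale.Agent.P216.V893
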