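import Vale.Agent.P216.V893.GlueB
import Vale.Agent.P216.Spine.Main
import Vale.Agent.P216.H126U.U5

/-!
# P216-B: composition of the rows (Riemannian form)
-/

open Set Filter Topology Bundle Manifold
open scoped ContDiff

namespace Vale.Agent.P216.V893

open L250 H494 H971B
open Vale.Agent.P216.Sl Vale.Agent.P216.N929

/-- **Theorem B**: composition of the rows. -/
theorem glueR (h1 : R1Goal) (h2 : R2Goal) (h2b : R2bGoal) (h3 : R3Goal) (h4 : R4Goal)
    (h5 : R5Goal) (h6 : R6Goal) (h7 : R7Goal) (h8 : R8Goal)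
    {E : Type} [NormedAddCommGroup E] [NormedSpace ℝ E] [FiniteDimensional ℝ E]
    {M : Type} [MetricSpace M] [CompactSpace M] [ChartedSpace E M] [IsManifold 𝓘(ℝ, E) ∞ M]
    [RiemannianBundle (fun x : M => TangentSpace 𝓘(ℝ, E) x)]
    [IsContMDiffRiemannianBundle 𝓘(ℝ, E) ∞ E (fun x : M => TangentSpace 𝓘(ℝ, E) x)]
    [IsRiemannianManifold 𝓘(ℝ, E) M] (x₀ : M)
    (hπ : Infinite (ConjClasses (FundamentalGroup M x₀)))
    (k : Type) [Field k] (q : ℕ) (hq : 1 ≤ q) (U : List M → k) (hU : Nrm U)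
    (hc : CocL (univ : Set M) (q + 1) U)
    (s : C(Metric.sphere (0 : EuclideanSpace ℝ (Fin (q + 2))) 1, M))
    (hne : ¬ ExL univ (q + 1) (fun l => U (l.map s))) :
    (primeClosedGeodesicImages M).Infinite := by
  intro hfin
  have : PathConnectedSpace M := ⟨⟨x₀⟩, H126U.joined_of_riemannian E⟩
  obtain ⟨ρ, hρ, hs, _⟩ := Geo.exists_uniqSeg E M
  obtain ⟨G⟩ := exists_geoList (nonBranching_of_riemannian (E := E) (M := M)) hfin
  exact (glueB h1 h2 h2b h3 h4 h5 h6 h7 h8 M ρ hρ hs x₀ hπ k q hq U hU hc s hne).false G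

end Vale.Agent.P216.V893
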