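import Vale.Agent.P216.V893.GlueR
import Vale.Agent.P216.H779D.DegF
import Vale.Agent.P216.H971.LowOut

/-!
# P216-B: composition of the rows, further forms
-/

open Set Filter Topology Bundle Manifold
open scoped ContDiff

namespace Vale.Agent.P216.V893

open L250 H494 H971B
open Vale.Agent.P216.Sl Vale.Agent.P216.N929
open Vale.Agent.P216.H971.Low

/-- The nine rows. -/
structure RowsB : Prop where
  r1 : R1Goal
  r2 : R2Goal
  r2b : R2bGoal
  r3 : R3Goal
  r4 : R4Goal
  r5 : R5Goal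
  r6 : R6Goal
  r7 : R7Goal
  r8 : R8Goal

variable {E : Type} [NormedAddCommGroup E] [NormedSpace ℝ E] [FiniteDimensional ℝ E]
    {M : Type} [MetricSpace M] [CompactSpace M] [ChartedSpace E M] [IsManifold 𝓘(ℝ, E) ∞ M]
    [RiemannianBundle (fun x : M => TangentSpace 𝓘(ℝ, E) x)]
    [IsContMDiffRiemannianBundle 𝓘(ℝ, E) ∞ E (fun x : M => TangentSpace 𝓘(ℝ, E) x)]
    [IsRiemannianManifold 𝓘(ℝ, E) M]

include E in
/-- **Theorem B**, for arbitrary (not normalised) cocycles. -/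
theorem glueC (R : RowsB) (x₀ : M) (hπ : Infinite (ConjClasses (FundamentalGroup M x₀)))
    (k : Type) [Field k] (q : ℕ) (hq : 1 ≤ q) (U : List M → k)
    (hc : CocL (univ : Set M) (q + 1) U)
    (s : C(Metric.sphere (0 : EuclideanSpace ℝ (Fin (q + 2))) 1, M))
    (hne : ¬ ExL univ (q + 1) (fun l => U (l.map s))) :
    (primeClosedGeodesicImages M).Infinite := by
  obtain ⟨V, nV, cV, eV⟩ := exists_nrm hc
  refine glueR (E := E) R.r1 R.r2 R.r2b R.r3 R.r4 R.r5 R.r6 R.r7 R.r8 x₀ hπ k q hq V nV cV s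
    fun hex => hne ?_
  have h1 : ExL (univ : Set M) (q + 1) fun l => U l - V l := eV.exL (by omega)
  have h2 := H779D.ExL.add' (H779D.ExL.comp h1 s) hex 1 1
  exact H779D.ExL.congr' h2 fun l => by ring

include E in
/-- **Theorem B** for a map to a sphere and a sphere in `M` whose composition has degree
`D ≠ 0`. -/
theorem glueDeg (R : RowsB) (x₀ : M) (hπ : Infinite (ConjClasses (FundamentalGroup M x₀)))
    (q : ℕ) (hq : 1 ≤ q) (f : C(M, Metric.sphere (0 : EuclideanSpace ℝ (Fin (q + 2))) 1))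
    (s : C(Metric.sphere (0 : EuclideanSpace ℝ (Fin (q + 2))) 1, M)) {D : ℤ} (hD : D ≠ 0)
    (h : (f.comp s).Homotopic (H779D.powS q D)) :
    (primeClosedGeodesicImages M).Infinite := by
  have hcS : CocL (univ : Set (H779D.Sq q)) (q + 1) (H779D.cS ℚ q) :=
    ⟨_, H779D.epsS_pos q, H779D.cS_coc⟩
  have hcM : CocL (univ : Set M) (q + 1) fun l => H779D.cS ℚ q (l.map f) := by
    obtain ⟨ε, hε, hc⟩ := hcS
    obtain ⟨δ, hδ, h'⟩ := H779D.exists_modulus f hε
    refine ⟨δ, hδ, fun l hl hs => ?_⟩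
    rw [Sl.dl_map]
    refine hc _ (by rw [List.length_map, hl]) ⟨fun y hy => mem_univ _, fun y hy y' hy' => ?_⟩
    obtain ⟨x, hx, rfl⟩ := List.mem_map.1 hy
    obtain ⟨x', hx', rfl⟩ := List.mem_map.1 hy'
    exact h' _ _ (hs.2 x hx x' hx')
  refine glueC (E := E) R x₀ hπ ℚ q hq _ hcM s fun hex => ?_
  have h1 := H779D.exL_cS (k := ℚ) hq h
  have hDq : (D : ℚ) ≠ 0 := by exact_mod_cast hD
  have h2 := H779D.ExL.add' h1 hex (-(1 / (D : ℚ))) (1 / (D : ℚ))
  refine H779D.not_exL_cS (k := ℚ) hq (H779D.ExL.congr' h2 fun l => ?_)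
  have h3 : (List.map f (List.map s l)) = l.map (f.comp s) := by
    rw [List.map_map]
    rfl
  rw [h3]
  field_simp
  ring

include E in
/-- **Theorem B** for homotopy retracts. -/
theorem glueId (R : RowsB) (x₀ : M) (hπ : Infinite (ConjClasses (FundamentalGroup M x₀)))
    (q : ℕ) (hq : 1 ≤ q) (f : C(M, Metric.sphere (0 : EuclideanSpace ℝ (Fin (q + 2))) 1))
    (s : C(Metric.sphere (0 : EuclideanSpace ℝ (Fin (q + 2))) 1, M))
    (h : (f.comp s).Homotopic (ContinuousMap.id _)) :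
    (primeClosedGeodesicImages M).Infinite := by
  refine glueDeg (E := E) R x₀ hπ q hq f s (D := 1) one_ne_zero ?_
  rw [H779D.powS_one]
  exact h

end Vale.Agent.P216.V893
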