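import Vale.Agent.P216.V893.RetB
import Vale.Agent.P216.H934D.Bridge

/-!
# P216-B: Theorem B for a class of degree at least two which is nonzero on a sphere
-/

open Set Filter Topology Bundle Manifold
open scoped ContDiff

namespace Vale.Agent.P216

/-- Some cohomology class of `M` of degree at least two, over some field, is nonzero on some
sphere. -/
def SphericalClass (M : Type) [TopologicalSpace M] : Prop :=
  ∃ (k : Type) (_ : Field k) (q : ℕ) (U : ASCoh.Cochain M k (q + 2))
    (s : C(Metric.sphere (0 : EuclideanSpace ℝ (Fin (q + 3))) 1, M)),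
    ASCoh.IsCocycle U ∧ ¬ ASCoh.IsCobd (k := k)
      (X := Metric.sphere (0 : EuclideanSpace ℝ (Fin (q + 3))) 1) fun σ => U (s ∘ σ)

namespace V893

open L250 H494 H971B H934D ASCoh
open Vale.Agent.P216.Sl Vale.Agent.P216.N929 Vale.Agent.P216.PS

theorem toL_comp {X Y k : Type} [Field k] {n : ℕ} (U : (Fin n → Y) → k) (s : X → Y)
    (l : List X) : toL (fun σ : Fin n → X => U (s ∘ σ)) l = toL U (l.map s) := by
  by_cases h : l.length = n
  · obtain ⟨x, rfl⟩ := exists_ofFn h
    rw [toL_ofFn, List.map_ofFn, toL_ofFn]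
  · rw [toL_of_ne _ h, toL_of_ne _ (by rwa [List.length_map])]

variable {E : Type} [NormedAddCommGroup E] [NormedSpace ℝ E] [FiniteDimensional ℝ E]
    {M : Type} [MetricSpace M] [CompactSpace M] [ChartedSpace E M] [IsManifold 𝓘(ℝ, E) ∞ M]
    [RiemannianBundle (fun x : M => TangentSpace 𝓘(ℝ, E) x)]
    [IsContMDiffRiemannianBundle 𝓘(ℝ, E) ∞ E (fun x : M => TangentSpace 𝓘(ℝ, E) x)]
    [IsRiemannianManifold 𝓘(ℝ, E) M]

include E in
/-- **Theorem B** from the rows. -/
theorem thmB_of (R : RowsB) (x₀ : M) (hπ : Infinite (ConjClasses (FundamentalGroup M x₀)))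
    (hS : SphericalClass M) : (primeClosedGeodesicImages M).Infinite := by
  obtain ⟨k, _, q, U, s, hU, hne⟩ := hS
  refine glueC (E := E) R x₀ hπ k (q + 1) (by omega) (toL U) ((isCocycle_iff U).1 hU) s
    fun hex => hne ?_
  rw [isCobd_iff]
  refine H779D.ExL.congr' hex fun l => ?_
  exact toL_comp U s l

end V893

end Vale.Agent.P216
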