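import Vale.Agent.P216.V893.RetB
import Vale.Agent.P216.H215.SphCov

/-!
# P216-B: `ThmBGoal` from the rows
-/

set_option linter.all false

namespace Vale.Agent.P216.V893

theorem thmBGoal_of (R : RowsB) : H215.ThmBGoal := by
  intro E _ _ _ N _ _ _ _ _ _ _ _ x₀ hπ k _ q U hq hU hc s hne
  exact glueR (E := E) R.r1 R.r2 R.r2b R.r3 R.r4 R.r5 R.r6 R.r7 R.r8 x₀ hπ k q hq U hU hc s hne

end Vale.Agent.P216.V893
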